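import Vale.Agent.P216.N970.Inst

/-!
# The crossing-swap identity on the path spaces, second form

The constants of the edge `τ = 0` are only asked for when the edge is there.
-/

open Set Finsupp Topology BoundedContinuousFunction

namespace Vale.Agent.P216.Sg

open Sl PS

variable {k : Type} [Field k] {M : Type} [MetricSpace M] [CompactSpace M]
variable {x₀ x₁ x₂ x₃ : M} {C t r ρ δ : ℝ}
variable {n b m d : ℕ} {tau : List (M × M) → k} {om eta : List (ℝ →ᵇ M) → k}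
  {r₀ εt εo εe c' s : ℝ}

/-- **THE CROSSING-SWAP IDENTITY ON THE PATH SPACES.** -/
theorem inst2 (h : LS.UniqSeg M ρ) (hr : 0 < r) (hrρ : r < ρ) (hr0 : r₀ < r) (hC : 0 ≤ C)
    (ht : 0 ≤ t) (hm : m + 1 = n + b) (hn : 2 ≤ n) (hd : b < d) (hdm : d ≤ m)
    (ntau : Nrm tau) (nom : Nrm om) (neta : Nrm eta) (hεt : 0 < εt) (hεo : 0 < εo)
    (hεe : 0 < εe)
    (htau1 : ∀ l : List (M × M), l.length = n + 2 → SmL univ εt l → dl tau l = 0)
    (htau0 : ∀ l : List (M × M), l.length = n + 1 → SmL univ εt l →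
      (∃ p ∈ l, r₀ ≤ dist p.1 p.2) → tau l = 0)
    (hom1 : ∀ l : List (ℝ →ᵇ M), l.length = b + 2 → SmL (P x₀ x₃ (C + r + t)) εo l →
      dl om l = 0)
    (hom0 : ∀ l : List (ℝ →ᵇ M), l.length = b + 1 → SmL (P x₀ x₃ c') εo l → om l = 0)
    (heta : ∀ l : List (ℝ →ᵇ M), l.length = d + 2 → SmL (P x₂ x₁ s) εe l → dl eta l = 0)
    {D s1 s2 : ℝ} (hD : 0 ≤ D)
    (hpi : ∀ (a b : M) (u : ℝ), 0 ≤ u → ∀ w ∈ P a b u, ∀ w' ∈ P a b u,
      JoinedIn (P a b (u + D)) w w')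
    (hs1 : C + 2 * r - c' < s1) (hs1' : 0 ≤ s1)
    (h1 : t + s1 + D ≤ s)
    {v₀ w₀ : ℝ →ᵇ M} (hv₀ : v₀ ∈ P x₃ x₁ s1)
    (hb : d = m → c' < t + 2 * r →
      t + 2 * r - c' < s2 ∧ 0 ≤ s2 ∧ s2 + D + C ≤ s ∧ w₀ ∈ P x₂ x₀ s2) :
    ∃ δ > 0, ∀ z : Ch k (ℝ →ᵇ M),
      z ∈ Sp k (fun l => l.length = m + 1 ∧ SmL (P x₀ x₁ C) δ l) → bd z = 0 →
      ∀ ι : Ch k ℝ, ι ∈ Sp k (fun l => l.length = 2 ∧ SmL (Icc 0 C) δ l) →
      bd ι = single [C] 1 - single [0] 1 →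
      ∀ κ : Ch k ℝ, κ ∈ Sp k (fun l => l.length = 2 ∧ SmL (Icc 0 t) δ l) →
      bd κ = single [t] 1 - single [0] 1 →
      ∃ g : List (ℝ →ᵇ M) → k, ∀ y : List (ℝ →ᵇ M), y.length = d + 1 → SmL (P x₂ x₃ t) δ y →
        ev (aL n tau om r x₃) (sh z ι) * eta (y.map fun q => cat t q v₀) +
          (if d = m ∧ c' < t + 2 * r then ev (fun l => eta (l.map fun p => cat s2 w₀ p)) z *
            fibL (aR n tau om r x₀) κ y else 0) = dl g y := by
  obtain ⟨δo, hδo0, hδo⟩ := uc_of_continuousOn (isCompact_Nr (x₀ := x₀) (x₁ := x₁) (x₂ := x₂)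
    (x₃ := x₃) (C := C) (t := t) (r := r)) (continuousOn_sw2 h hr hrρ hC ht) hεo
  obtain ⟨δe, hδe0, hδe⟩ := uc_of_continuousOn (isCompact_Nr (x₀ := x₀) (x₁ := x₁) (x₂ := x₂)
    (x₃ := x₃) (C := C) (t := t) (r := r)) (continuousOn_sw1 h hr hrρ hC ht) hεe
  classical
  obtain ⟨δ, hδ, a1, a2, a3, a4, a5, a6, a7'⟩ := exists_delta hεt (sub_pos.2 hr0) hδo0 hδe0
    (sub_pos.2 hs1) (g5 := if d = m ∧ c' < t + 2 * r then s2 - (t + 2 * r - c') else 1)
    (by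
      split_ifs with hdc
      · exact sub_pos.2 (hb hdc.1 hdc.2).1
      · exact one_pos) (lt_min hεe hr)
  have a7 : 2 * δ ≤ εe := a7'.trans (min_le_left _ _)
  have a8 : 2 * δ ≤ r := a7'.trans (min_le_right _ _)
  have hδo' : ∀ p ∈ Nr x₀ x₁ x₂ x₃ C t r, ∀ p' ∈ Nr x₀ x₁ x₂ x₃ C t r, dist p p' < δ →
      dist (sw2 r p) (sw2 r p') < εo := fun p hp p' hp' hpp => hδo p hp p' hp' (hpp.trans_le a3)
  have hδe' : ∀ p ∈ Nr x₀ x₁ x₂ x₃ C t r, ∀ p' ∈ Nr x₀ x₁ x₂ x₃ C t r, dist p p' < δ →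
      dist (sw1 r p) (sw1 r p') < εe := fun p hp p' hp' hpp => hδe p hp p' hp' (hpp.trans_le a4)
  refine ⟨δ, hδ, fun z hz hbz ι hι hbι κ hκ hbκ => ?_⟩
  by_cases hne : (P x₀ x₁ C).Nonempty
  swap
  · refine ⟨fun _ => 0, fun y _ _ => ?_⟩
    rw [chain_eq_zero hz hne, map_zero, LinearMap.zero_apply, map_zero, map_zero, zero_mul,
      zero_mul, ite_self, add_zero, PS.dl_zero_fun]
  by_cases hne' : (P x₂ x₃ t).Nonempty
  swap
  · refine ⟨fun _ => 0, fun y hy hyS => ?_⟩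
    obtain ⟨x, hx⟩ := List.exists_mem_of_ne_nil y (by
      rintro rfl
      simp at hy)
    exact absurd ⟨x, hyS.1 x hx⟩ hne'
  obtain ⟨α₀, hα₀⟩ := hne
  obtain ⟨q₀, hq₀⟩ := hne'
  have hzι : sh z ι ∈ Sp k (fun l => l.length = m + 1 + 1 ∧ SmL (P x₀ x₁ C ×ˢ Icc 0 C) δ l) :=
    Sp_SmL_sh (q := 1) hz hι
  -- the edge `σ = t`
  obtain ⟨b1, hb1⟩ := Hm.ev_sum (eta := eta) (X := P x₂ x₃ t) (δ := δ) (d := d)
    (a := aL n tau om r x₃) (Z := sh z ι)
    (i := fun ξ q => sw1 r (ξ.getLastD (α₀, 0), (t, q))) (i₀ := fun q => cat t q v₀)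
    (fun ξ hξ ha => by
      have hξ' := (Finsupp.mem_supported _ _).1 hzι (Finsupp.mem_support_iff.2 hξ)
      have hξl : ξ.length = m + 1 + 1 := hξ'.1
      have hξS : SmL (P x₀ x₁ C ×ˢ Icc 0 C) δ ξ := hξ'.2
      have hξne : ξ ≠ [] := by
        rintro rfl
        simp at hξl
      have hlast := getLastD_mem (α₀, (0 : ℝ)) hξne
      obtain ⟨hd1, hd2⟩ := edge_right h hr hrρ ht hδ a1 a2 htau0 hom0 hδo' hq₀ hξS (by omega) ha
        _ hlast
      obtain ⟨hα, hτ⟩ := hξS.1 _ hlast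
      set x := ξ.getLastD (α₀, (0 : ℝ)) with hx
      have hw : splice r (cst x₃) x.1 0 x.2 ∈ P x₃ x₁ s1 := by
        refine P_mono ?_ (splice_mem (t := C) h hr hrρ (lip_cst x₃) hα.1 (by rwa [cst_apply])
          le_rfl hτ.2 (fun _ _ => cst_apply _ _) hα.2.2)
        linarith
      have key := Hm_cat_right (a := x₂) (b := x₃) (c := x₁) (t := t) (s := s1 + D) (ε := εe)
        (d := d) (eta := eta) ht (by linarith) hεe
        (fun l hl hl' => heta l hl (hl'.mono (P_mono (by linarith)) le_rfl))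
        (hpi x₃ x₁ s1 hs1' v₀ hv₀ _ hw)
      refine (key.mono le_rfl (by linarith)).congr (fun _ _ => rfl) fun q hq => ?_
      have e1 : (q : ℝ →ᵇ M) t = x₃ := eq_right hq le_rfl
      have e2 := splice_end_left (w := q) (w' := x.1) (t := t) (τ := x.2) h hr hrρ hq.1 hα.1
        (by rwa [e1])
      simp only [sw1]
      rw [e2, e1])
  -- the edge `τ = 0`
  have E2' : ∀ y : List (ℝ →ᵇ M), y.length = d + 1 → SmL (P x₂ x₃ t) δ y → d = m →
      ¬ (c' < t + 2 * r) → ev (fun β => tau ((β.take (n + 1)).map fun x => (x₀, x.2 x.1)) *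
        om ((β.drop n).map fun x => splice r (cst x₀) x.2 0 x.1) *
        ev (fun s => eta (s.map fun p => sw1 r ((p, 0), β.getLastD ((0 : ℝ), q₀)))) z)
          (sh κ (single y 1)) = 0 := by
    intro y hy hyS hdm' hct
    have hβm : sh κ (single y (1 : k)) ∈
        Sp k (fun l => l.length = 1 + d + 1 ∧ SmL (Icc 0 t ×ˢ P x₂ x₃ t) δ l) :=
      Sp_SmL_sh (p := 1) hκ (single_mem ⟨hy, hyS⟩ 1)
    refine ev_zero_of (fun β hβ => ?_) hβm
    obtain ⟨hβl, hβS⟩ := hβ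
    rw [← aR]
    by_cases ha : aR n tau om r x₀ β = 0
    · rw [ha, zero_mul]
    exfalso
    have hβne : β ≠ [] := by
      rintro rfl
      simp at hβl
    have hlast := getLastD_mem ((0 : ℝ), q₀) hβne
    obtain ⟨hd1, hd2⟩ := edge_bottom h hr hrρ hC hδ a1 a2 htau0 hom0 hδo' hα₀ hβS (by omega) ha
      _ hlast
    obtain ⟨hσ, hq⟩ := hβS.1 _ hlast
    have hσ0 := hσ.1
    exact hct (by linarith)
  have E2 : ∀ y : List (ℝ →ᵇ M), y.length = d + 1 → SmL (P x₂ x₃ t) δ y → d = m →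
      c' < t + 2 * r → ev (fun β => tau ((β.take (n + 1)).map fun x => (x₀, x.2 x.1)) *
        om ((β.drop n).map fun x => splice r (cst x₀) x.2 0 x.1) *
        ev (fun s => eta (s.map fun p => sw1 r ((p, 0), β.getLastD ((0 : ℝ), q₀)))) z)
          (sh κ (single y 1)) =
      ev (fun l => eta (l.map fun p => cat s2 w₀ p)) z * fibL (aR n tau om r x₀) κ y := by
    intro y hy hyS hdm' hct
    obtain ⟨hs2, hs2', h2, hw₀⟩ := hb hdm' hct
    rw [if_pos ⟨hdm', hct⟩] at a6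
    have hβm : sh κ (single y (1 : k)) ∈
        Sp k (fun l => l.length = 1 + d + 1 ∧ SmL (Icc 0 t ×ˢ P x₂ x₃ t) δ l) :=
      Sp_SmL_sh (p := 1) hκ (single_mem ⟨hy, hyS⟩ 1)
    rw [fibL, ← ev_smul_fun]
    refine ev_congr (fun β hβ => ?_) hβm
    obtain ⟨hβl, hβS⟩ := hβ
    rw [← aR, mul_comm]
    by_cases ha : aR n tau om r x₀ β = 0
    · rw [ha, mul_zero, mul_zero]
    congr 1
    have hβne : β ≠ [] := by
      rintro rfl
      simp at hβl
    have hlast := getLastD_mem ((0 : ℝ), q₀) hβne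
    obtain ⟨hd1, hd2⟩ := edge_bottom h hr hrρ hC hδ a1 a2 htau0 hom0 hδo' hα₀ hβS (by omega) ha
      _ hlast
    obtain ⟨hσ, hq⟩ := hβS.1 _ hlast
    set x := β.getLastD ((0 : ℝ), q₀) with hx
    have hw : splice r x.2 (cst x₀) x.1 0 ∈ P x₂ x₀ (x.1 + r) := by
      refine P_mono ?_ (splice_mem (t := 0) h hr hrρ hq.1 (lip_cst x₀) (by rwa [cst_apply])
        hσ.1 le_rfl hq.2.1 (fun _ _ => cst_apply _ _))
      linarith
    have key := Hm_cat_slide (a := x₂) (b := x₀) (c := x₁) (C := C) (D := D) (ε := εe)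
      (s₀ := s2) (s := s2) (s' := x.1 + r) (w := w₀) (w' := splice r x.2 (cst x₀) x.1 0)
      (d := d) (eta := eta) hC hD hεe (hpi x₂ x₀ s2 hs2')
      (fun l hl hl' => heta l hl (hl'.mono (P_mono (by linarith)) le_rfl)) hs2'
      (by linarith [hσ.1]) le_rfl (by linarith) hw₀ hw
    have hz' : z ∈ Sp k (fun l => l.length = d + 1 ∧ SmL (P x₀ x₁ C) δ l) := by
      rw [hdm']
      exact hz
    rw [← (key.mono le_rfl (show δ ≤ εe / 2 by linarith)).ev_eq hz' hbz]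
    refine ev_congr (fun l hl => ?_) hz'
    congr 1
    refine List.map_congr_left fun p hp => ?_
    have hpP := hl.2.1 p hp
    have e1 : (p : ℝ →ᵇ M) 0 = x₀ := eq_left hpP le_rfl
    have e2 := splice_zero_right (w := x.2) (w' := p) (σ := x.1) h hr hrρ hq.1 hpP.1 (by rwa [e1])
    simp only [sw1]
    rw [e2, e1]
  -- assembly
  refine ⟨fun y => slant n b tau om eta cr (sw2 r) (sw1 r) (sh z ι) κ y + -b1 y,
    fun y hy hyS => ?_⟩
  have hcoc : ev (psi n b tau om eta cr (sw2 r) (sw1 r))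
      (bd (sh (sh z ι) (sh κ (single y 1)))) = 0 := by
    rw [← ev_dl]
    have hX : sh (sh z ι) (sh κ (single y (1 : k))) ∈ Sp k (fun l : List (PT M) =>
        l.length = (m + 1) + (d + 1) + 1 ∧ SmL (Dom x₀ x₁ x₂ x₃ C t) δ l) := by
      have h3 := Sp_SmL_sh (p := 1) (q := d) hκ (single_mem (k := k)
        (P := fun l => l.length = d + 1 ∧ SmL (P x₂ x₃ t) δ l) ⟨hy, hyS⟩ 1)
      rw [show 1 + d + 1 = (d + 1) + 1 by omega] at h3
      exact Sp_SmL_sh hzι h3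
    exact ev_zero_of (fun l hl => dl_psi_zero h hr hrρ (by linarith) a1 a2 htau1 htau0 hom1 hom0
      heta hδo' hδe' (by rw [hl.1]; omega) hl.2) hX
  have hzIn : z ∈ Sp k (In (P x₀ x₁ C)) := Sp_mono (fun l hl => hl.2.1) hz
  have hιIn : ι ∈ Sp k (In (Icc 0 C)) := Sp_mono (fun l hl => hl.2.1) hι
  have hκIn : κ ∈ Sp k (In (Icc 0 t)) := Sp_mono (fun l hl => hl.2.1) hκ
  have swap := swap_identity_on (A := P x₀ x₁ C) (B := Icc 0 C) (C := Icc 0 t) (D := P x₂ x₃ t)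
    (c := cr) (w := sw2 r) (v := sw1 r) (tau := tau) (om := om) (eta := eta)
    hm hn hd hdm ntau nom neta (Sp_mono (fun l hl => hl.1) hz) hzIn hbz
    (Sp_mono (fun l hl => hl.1) hι) hιIn hbι (Sp_mono (fun l hl => hl.1) hκ) hκIn hbκ
    ⟨le_rfl, hC⟩ ⟨hC, le_rfl⟩ ⟨le_rfl, ht⟩ ⟨ht, le_rfl⟩
    (cs1 := fun x => (x.1 x.2, x₃)) (ws1 := fun x => splice r x.1 (cst x₃) x.2 0)
    (fun x _ q hq => by simp only [cr]; rw [eq_right hq le_rfl])
    (fun x _ q hq => splice_end_right hr fun u hu => eq_right hq hu)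
    (cs0 := fun x => (x.1 x.2, x₂)) (vs0 := fun x => splice r (cst x₂) x.1 0 x.2)
    (fun x _ q hq => by simp only [cr]; rw [eq_left hq le_rfl])
    (fun x _ q hq => splice_zero_left hr fun u hu => eq_left hq hu)
    (cr1 := fun x => (x₁, x.2 x.1)) (vr1 := fun x => splice r x.2 (cst x₁) x.1 0)
    (fun p hp x _ => by simp only [cr]; rw [eq_right hp le_rfl])
    (fun p hp x _ => splice_end_right hr fun u hu => eq_right hp hu)
    (cr0 := fun x => (x₀, x.2 x.1)) (wr0 := fun x => splice r (cst x₀) x.2 0 x.1)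
    (fun p hp x _ => by simp only [cr]; rw [eq_left hp le_rfl])
    (fun p hp x _ => splice_zero_left hr fun u hu => eq_left hp hu)
    (α₀, 0) (0, q₀) ⟨hα₀, ⟨le_rfl, hC⟩⟩ ⟨⟨le_rfl, ht⟩, hq₀⟩ hy hyS.1 hcoc
  have hb := hb1 y hy hyS
  rw [PS.dl_add, PS.dl_neg, ← swap, ← hb]
  by_cases hdm' : d = m
  · by_cases hct : c' < t + 2 * r
    · rw [if_pos hdm', if_pos ⟨hdm', hct⟩, E2 y hy hyS hdm' hct]
      simp only [aL]
      ring
    · rw [if_pos hdm', if_neg (fun hh => hct hh.2), E2' y hy hyS hdm' hct]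
      simp only [aL]
      ring
  · rw [if_neg hdm', if_neg (fun hh => hdm' hh.1)]
    simp only [aL]
    ring

end Vale.Agent.P216.Sg
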