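import Vale.Agent.P216.H787.Swap

/-!
# Subdivided intervals as list chains

* `pth f N` : the chain of the steps `[f j, f (j + 1)]`, `j < N`; boundary `[f N] - [f 0]`;
* `seg a b N` : the interval from `a` to `b` in `N` equal steps;
* `Fi S r` : lists with entries in `S` and pairwise distances at most `r`; products, supports;
* `rect_bd` : the boundary of the triangulated rectangle.
-/

open Finsupp Set

namespace Vale.Agent.P216.Sg

open Vale.Agent.P216.Sl

variable {k : Type} [Field k]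
variable {α β : Type}

/-- The chain of the steps of a sequence. -/
noncomputable def pth (k : Type) [Field k] (f : ℕ → α) (N : ℕ) : Ch k α :=
  ∑ j ∈ Finset.range N, single [f j, f (j + 1)] 1

theorem pth_zero (f : ℕ → α) : pth k f 0 = 0 := by simp [pth]

theorem pth_succ (f : ℕ → α) (N : ℕ) :
    pth k f (N + 1) = pth k f N + single [f N, f (N + 1)] 1 := by
  rw [pth, Finset.sum_range_succ]; rfl

theorem bdL_pair (x y : α) : (bdL [x, y] : Ch k α) = single [y] 1 - single [x] 1 := by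
  rw [bdL_cons, bdL_cons, bdL_nil, map_zero, sub_zero, cons_single]

theorem bd_pth (f : ℕ → α) (N : ℕ) : bd (pth k f N) = single [f N] 1 - single [f 0] 1 := by
  induction N with
  | zero => rw [pth_zero, map_zero, sub_self]
  | succ N ih => rw [pth_succ, map_add, ih, bd_single, one_smul, bdL_pair]; abel

theorem pth_mem {P : List α → Prop} {f : ℕ → α} {N : ℕ} (h : ∀ j < N, P [f j, f (j + 1)]) :
    pth k f N ∈ Sp k P :=
  Submodule.sum_mem _ fun j hj => single_mem (h j (Finset.mem_range.1 hj)) _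

theorem pth_Ln (f : ℕ → α) (N : ℕ) : pth k f N ∈ Sp k (Ln 2) := pth_mem fun _ _ => rfl

theorem mp_pth (g : α → β) (f : ℕ → α) (N : ℕ) :
    mp g (pth k f N) = pth k (fun j => g (f j)) N := by
  rw [pth, map_sum, pth]
  exact Finset.sum_congr rfl fun j _ => by rw [mp_single]; rfl

theorem ev_pth (g : List α → k) (f : ℕ → α) (N : ℕ) :
    ev g (pth k f N) = ∑ j ∈ Finset.range N, g [f j, f (j + 1)] := by
  rw [pth, map_sum]
  exact Finset.sum_congr rfl fun j _ => by rw [ev_single, one_mul]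

theorem pth_add (f : ℕ → α) (N M : ℕ) :
    pth k f (N + M) = pth k f N + pth k (fun j => f (N + j)) M := by
  rw [pth, Finset.sum_range_add, pth, pth]
  rfl

theorem pth_congr {f g : ℕ → α} {N : ℕ} (h : ∀ j ≤ N, f j = g j) : pth k f N = pth k g N := by
  refine Finset.sum_congr rfl fun j hj => ?_
  have hj' := Finset.mem_range.1 hj
  rw [h j hj'.le, h (j + 1) hj']

/-- The interval from `a` to `b` in `N` equal steps. -/
noncomputable def seg (k : Type) [Field k] (a b : ℝ) (N : ℕ) : Ch k ℝ :=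
  pth k (fun j => a + j * ((b - a) / N)) N

theorem bd_seg (a b : ℝ) {N : ℕ} (hN : N ≠ 0) :
    bd (seg k a b N) = single [b] 1 - single [a] 1 := by
  have h : (N : ℝ) ≠ 0 := by exact_mod_cast hN
  rw [seg, bd_pth]
  simp only [Nat.cast_zero, zero_mul, add_zero]
  rw [mul_div_cancel₀ _ h, add_sub_cancel]

theorem seg_Ln (a b : ℝ) (N : ℕ) : seg k a b N ∈ Sp k (Ln 2) := pth_Ln _ _

/-- The boundary keeps the conditions which pass to sublists. -/
theorem bd_mem {P : List α → Prop} (hP : ∀ l l' : List α, l'.Sublist l → P l → P l')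
    {c : Ch k α} (hc : c ∈ Sp k P) : bd c ∈ Sp k P := by
  have key : ∀ l : List α, (bdL l : Ch k α) ∈ Sp k (fun l' => l'.Sublist l) := by
    intro l
    induction l with
    | nil => exact Submodule.zero_mem _
    | cons x l ih =>
      rw [bdL_cons]
      refine Submodule.sub_mem _ (single_mem (P := fun l' => l'.Sublist (x :: l))
        (List.sublist_cons_self x l) _) ?_
      exact map_mem _ (fun l' hl' => by
        rw [cons_single]
        exact single_mem (P := fun l' => l'.Sublist (x :: l)) (hl'.cons_cons x) _) ih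
  exact map_mem _ (fun l hl => by
    rw [bd_single, one_smul]
    exact Sp_mono (fun l' hl' => hP l l' hl' hl) (key l)) hc

theorem and_mem {P Q : List α → Prop} {c : Ch k α} (h : c ∈ Sp k P) (h' : c ∈ Sp k Q) :
    c ∈ Sp k (fun l => P l ∧ Q l) := by
  rw [Finsupp.mem_supported] at h h' ⊢
  exact fun l hl => ⟨h hl, h' hl⟩

/-- Lists with entries in `S` and pairwise distances at most `r`. -/
def Fi [PseudoMetricSpace α] (S : Set α) (r : ℝ) (l : List α) : Prop :=
  (∀ x ∈ l, x ∈ S) ∧ ∀ x ∈ l, ∀ y ∈ l, dist x y ≤ r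

section Fi

variable [PseudoMetricSpace α] [PseudoMetricSpace β] {S : Set α} {S' : Set β} {r r' : ℝ}

theorem Fi.mono {T : Set α} {l : List α} (h : Fi S r l) (hS : S ⊆ T) (hr : r ≤ r') : Fi T r' l :=
  ⟨fun x hx => hS (h.1 x hx), fun x hx y hy => (h.2 x hx y hy).trans hr⟩

theorem Fi.sub {l l' : List α} (h : Fi S r l) (hl : ∀ x ∈ l', x ∈ l) : Fi S r l' :=
  ⟨fun x hx => h.1 x (hl x hx), fun x hx y hy => h.2 x (hl x hx) y (hl y hy)⟩

theorem Fi.tail {x : α} {l : List α} (h : Fi S r (x :: l)) : Fi S r l :=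
  h.sub fun _ hy => List.mem_cons_of_mem _ hy

theorem Fi.take {l : List α} (h : Fi S r l) (n : ℕ) : Fi S r (l.take n) :=
  h.sub fun _ hy => List.mem_of_mem_take hy

theorem Fi.drop {l : List α} (h : Fi S r l) (n : ℕ) : Fi S r (l.drop n) :=
  h.sub fun _ hy => List.mem_of_mem_drop hy

theorem Fi.map {l : List α} (h : Fi S r l) {f : α → β} (hS : ∀ x ∈ S, f x ∈ S')
    (hf : ∀ x ∈ S, ∀ y ∈ S, dist x y ≤ r → dist (f x) (f y) ≤ r') : Fi S' r' (l.map f) := by
  constructor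
  · intro x hx
    obtain ⟨y, hy, rfl⟩ := List.mem_map.1 hx
    exact hS y (h.1 y hy)
  · intro x hx x' hx'
    obtain ⟨y, hy, rfl⟩ := List.mem_map.1 hx
    obtain ⟨y', hy', rfl⟩ := List.mem_map.1 hx'
    exact hf y (h.1 y hy) y' (h.1 y' hy') (h.2 y hy y' hy')

/-- Grid lists of two fine lists are fine. -/
theorem Fi.gr {s : List α} {t : List β} {l : List (α × β)} (hs : Fi S r s) (ht : Fi S' r t)
    (hl : Gr s t l) : Fi (S ×ˢ S') r l :=
  ⟨fun x hx => ⟨hs.1 _ (hl.2 x hx).1, ht.1 _ (hl.2 x hx).2⟩, fun x hx y hy => by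
    rw [Prod.dist_eq]
    exact max_le (hs.2 _ (hl.2 x hx).1 _ (hl.2 y hy).1) (ht.2 _ (hl.2 x hx).2 _ (hl.2 y hy).2)⟩

theorem sh_Fi {c : Ch k α} {c' : Ch k β} (hc : c ∈ Sp k (Fi S r)) (hc' : c' ∈ Sp k (Fi S' r)) :
    sh c c' ∈ Sp k (Fi (S ×ˢ S') r) :=
  sh_mem (fun _ _ _ hs ht hl => hs.gr ht hl) hc hc'

theorem bd_Fi {c : Ch k α} (hc : c ∈ Sp k (Fi S r)) : bd c ∈ Sp k (Fi S r) :=
  bd_mem (fun _ _ h hl => hl.sub fun _ hx => h.subset hx) hc

end Fi

theorem fi_pair {a b δ x y : ℝ} (hx : x ∈ Icc a b) (hy : y ∈ Icc a b) (h : |x - y| ≤ δ) :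
    Fi (Icc a b) δ [x, y] := by
  have h0 : 0 ≤ δ := (abs_nonneg _).trans h
  constructor
  · intro u hu
    rcases List.mem_pair.1 hu with rfl | rfl
    · exact hx
    · exact hy
  · intro u hu v hv
    rw [Real.dist_eq]
    rcases List.mem_pair.1 hu with rfl | rfl <;> rcases List.mem_pair.1 hv with rfl | rfl
    · simpa using h0
    · exact h
    · rwa [abs_sub_comm]
    · simpa using h0

theorem seg_Fi {a b δ : ℝ} (hab : a ≤ b) {N : ℕ} (hN : N ≠ 0) (h : (b - a) / N ≤ δ) :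
    seg k a b N ∈ Sp k (Fi (Icc a b) δ) := by
  have hN' : (0 : ℝ) < N := by exact_mod_cast Nat.pos_of_ne_zero hN
  have hs : 0 ≤ (b - a) / N := div_nonneg (sub_nonneg.2 hab) hN'.le
  have hb : ∀ j : ℕ, j ≤ N → a + j * ((b - a) / N) ∈ Icc a b := by
    intro j hj
    have hj' : (j : ℝ) ≤ N := by exact_mod_cast hj
    constructor
    · nlinarith [mul_nonneg (Nat.cast_nonneg (α := ℝ) j) hs]
    · have h1 : (j : ℝ) * ((b - a) / N) ≤ N * ((b - a) / N) :=
        mul_le_mul_of_nonneg_right hj' hs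
      rw [mul_div_cancel₀ _ hN'.ne'] at h1
      linarith
  refine pth_mem fun j hj => fi_pair (hb j hj.le) (hb (j + 1) hj) ?_
  have : a + (j : ℝ) * ((b - a) / N) - (a + ((j + 1 : ℕ) : ℝ) * ((b - a) / N)) =
      -((b - a) / N) := by
    push_cast; ring
  rw [this, abs_neg, abs_of_nonneg hs]
  exact h

/-- Fine subdivided intervals. -/
theorem exists_seg (k : Type) [Field k] {a b δ : ℝ} (hab : a ≤ b) (hδ : 0 < δ) :
    ∃ N : ℕ, N ≠ 0 ∧ seg k a b N ∈ Sp k (Fi (Icc a b) δ) ∧ seg k a b N ∈ Sp k (Ln 2) ∧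
      bd (seg k a b N) = single [b] 1 - single [a] 1 := by
  obtain ⟨N, hN⟩ := exists_nat_gt ((b - a) / δ)
  have hN0 : (0 : ℝ) < N := lt_of_le_of_lt (div_nonneg (sub_nonneg.2 hab) hδ.le) hN
  have hN' : N ≠ 0 := by
    rintro rfl
    simp at hN0
  refine ⟨N, hN', seg_Fi hab hN' ?_, seg_Ln _ _ _, bd_seg _ _ hN'⟩
  rw [div_le_iff₀ hN0]
  rw [div_lt_iff₀ hδ] at hN
  linarith [mul_comm δ (N : ℝ)]

/-- The boundary of the triangulated rectangle: right edge - left edge - top edge + bottom edge. -/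
theorem rect_bd {ι : Ch k α} (hι : ι ∈ Sp k (Ln 2)) {a0 a1 : α}
    (hbι : bd ι = single [a1] 1 - single [a0] 1) {κ : Ch k β} (hκ : κ ∈ Sp k (Ln 2)) {b0 b1 : β}
    (hbκ : bd κ = single [b1] 1 - single [b0] 1) :
    bd (sh ι κ) = mp (fun b => (a1, b)) κ - mp (fun b => (a0, b)) κ -
      (mp (fun a => (a, b1)) ι - mp (fun a => (a, b0)) ι) := by
  rw [bd_sh (p := 1) (q := 1) (by omega) hι hκ, hbι, hbκ, map_sub, map_sub, LinearMap.sub_apply,
    sh_point_left a1 (Ln_ne hκ), sh_point_left a0 (Ln_ne hκ), sh_point_right b1 (Ln_ne hι),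
    sh_point_right b0 (Ln_ne hι), pow_one, neg_one_smul, sub_eq_add_neg _ (mp _ ι - mp _ ι)]

/-- Support of the chain of the swap identity. -/
theorem swap_Fi {P T U Q : Type} [PseudoMetricSpace P] [PseudoMetricSpace T]
    [PseudoMetricSpace U] [PseudoMetricSpace Q] {A : Set P} {B : Set T} {C : Set U} {D : Set Q}
    {r : ℝ} {z : Ch k P} (hz : z ∈ Sp k (Fi A r)) {ι : Ch k T} (hι : ι ∈ Sp k (Fi B r))
    {κ : Ch k U} (hκ : κ ∈ Sp k (Fi C r)) {y : List Q} (hy : Fi D r y) :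
    sh (sh z ι) (sh κ (single y (1 : k))) ∈ Sp k (Fi ((A ×ˢ B) ×ˢ (C ×ˢ D)) r) :=
  sh_Fi (sh_Fi hz hι) (sh_Fi hκ (single_mem hy 1))

end Vale.Agent.P216.Sg
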