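import Vale.Agent.P216.N970.Inst

/-!
# The integrand `aL` of the first edge: cocycle, independence of the mesh and of `om` modulo `dl`
-/

open Set Finsupp Topology BoundedContinuousFunction

namespace Vale.Agent.P216.Sg

open Sl PS

variable {k : Type} [Field k] {M : Type} [MetricSpace M] [CompactSpace M]
variable {x₀ x₁ x₂ x₃ : M} {C C' t r ρ δ ε₀ : ℝ} {n b m d : ℕ} {tau : List (M × M) → k}
  {om : List (ℝ →ᵇ M) → k} {r₀ εt εo : ℝ}

/-- The pair of points of `aL`. -/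
def pL (x₃ : M) (x : (ℝ →ᵇ M) × ℝ) : M × M := (x.1 x.2, x₃)

/-- The cut path of `aL`. -/
noncomputable def cL (r : ℝ) (x₃ : M) (x : (ℝ →ᵇ M) × ℝ) : ℝ →ᵇ M := splice r x.1 (cst x₃) x.2 0

theorem aL_eq_cup : aL n tau om r x₃ =
    cup n (fun l => tau (l.map (pL x₃))) (fun l => om (l.map (cL r x₃))) := by
  funext ξ
  rfl

theorem aL_sub (om om' : List (ℝ →ᵇ M) → k) (ξ : List ((ℝ →ᵇ M) × ℝ)) :
    aL n tau (fun l => om l - om' l) r x₃ ξ = aL n tau om r x₃ ξ - aL n tau om' r x₃ ξ := by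
  simp only [aL]
  ring

theorem ev_aL_sub (om om' : List (ℝ →ᵇ M) → k) (c : Ch k ((ℝ →ᵇ M) × ℝ)) :
    ev (aL n tau (fun l => om l - om' l) r x₃) c =
      ev (aL n tau om r x₃) c - ev (aL n tau om' r x₃) c := by
  have h1 : aL n tau (fun l => om l - om' l) r x₃ = fun ξ =>
      aL n tau om r x₃ ξ + (-1) * aL n tau om' r x₃ ξ := by
    funext ξ
    rw [aL_sub]
    ring
  rw [h1, ev_add_fun, ev_smul_fun]
  ring

/-- A normalised cochain vanishes on the constant lists. -/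
theorem Nrm.const {α β : Type} {f : List β → k} (hf : Nrm f) {l : List α} {g : α → β} {c : β}
    (hl : 2 ≤ l.length) (hg : ∀ x ∈ l, g x = c) : f (l.map g) = 0 := by
  rcases l with _ | ⟨a, l⟩
  · simp at hl
  rcases l with _ | ⟨a', l⟩
  · simp at hl
  rw [List.map_cons, List.map_cons, hg a (by simp), hg a' (by simp)]
  exact hf.dup c _

/-- `aL` vanishes on the lists whose times are all at least `C`. -/
theorem aL_tail (hn : 1 ≤ n) (ntau : Nrm tau) {ξ : List ((ℝ →ᵇ M) × ℝ)} (hlen : 2 ≤ ξ.length)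
    (h : ∀ x ∈ ξ, x.1 ∈ P x₀ x₁ C ∧ C ≤ x.2) : aL n tau om r x₃ ξ = 0 := by
  rw [aL, Nrm.const (c := (x₁, x₃)) ntau (by rw [List.length_take]; omega) (fun x hx => by
    have := h x (List.mem_of_mem_take hx)
    rw [eq_right this.1 this.2]), zero_mul]

/-- `aL` vanishes on the lists whose times are all at most `0`. -/
theorem aL_head (hn : 1 ≤ n) (ntau : Nrm tau) {ξ : List ((ℝ →ᵇ M) × ℝ)} (hlen : 2 ≤ ξ.length)
    (h : ∀ x ∈ ξ, x.1 ∈ P x₀ x₁ C ∧ x.2 ≤ 0) : aL n tau om r x₃ ξ = 0 := by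
  rw [aL, Nrm.const (c := (x₀, x₃)) ntau (by rw [List.length_take]; omega) (fun x hx => by
    have := h x (List.mem_of_mem_take hx)
    rw [eq_left this.1 this.2]), zero_mul]

omit [CompactSpace M] in
theorem pL_near {x x' : (ℝ →ᵇ M) × ℝ} (hx : x.1 ∈ P x₀ x₁ C) (h : dist x x' < δ) :
    dist (pL x₃ x) (pL x₃ x') < 2 * δ := by
  rw [Prod.dist_eq, max_lt_iff] at h
  have h1 := dist_ev_lt hx h.1 h.2
  have h2 : (0 : ℝ) < 2 * δ := dist_nonneg.trans_lt h1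
  rw [Prod.dist_eq, pL, pL]
  simp only [dist_self]
  exact max_lt h1 h2

omit [CompactSpace M] in
/-- If `tau` does not vanish on the front, all entries are near `x₃`. -/
theorem near_of_tauL (h2δ : 2 * δ ≤ εt) (h4δ : 4 * δ ≤ r - r₀)
    (htau0 : ∀ l : List (M × M), l.length = n + 1 → SmL univ εt l →
      (∃ p ∈ l, r₀ ≤ dist p.1 p.2) → tau l = 0)
    {l : List ((ℝ →ᵇ M) × ℝ)} (hl : SmL (P x₀ x₁ C ×ˢ Icc 0 C') δ l) (hn : n + 1 ≤ l.length)
    (h : tau ((l.take (n + 1)).map (pL x₃)) ≠ 0) : ∀ x ∈ l, dist (x.1 x.2) x₃ ≤ r := by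
  have hsub : ∀ x ∈ l.take (n + 1), x ∈ l := fun x hx => List.mem_of_mem_take hx
  have hsm : SmL univ εt ((l.take (n + 1)).map (pL x₃)) :=
    SmL_map (fun _ _ => mem_univ _) fun x hx y hy =>
      (pL_near (hl.1 x (hsub x hx)).1 (hl.2 x (hsub x hx) y (hsub y hy))).trans_le h2δ
  have hlen : ((l.take (n + 1)).map (pL x₃)).length = n + 1 := by
    rw [List.length_map, List.length_take]; omega
  have hall : ∀ x ∈ l.take (n + 1), dist (x.1 x.2) x₃ < r₀ := by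
    intro p hp
    by_contra hc
    exact h (htau0 _ hlen hsm ⟨pL x₃ p, List.mem_map_of_mem hp, not_lt.1 hc⟩)
  obtain ⟨p, hp⟩ : ∃ p, p ∈ l.take (n + 1) := by
    apply List.exists_mem_of_ne_nil
    intro h0
    rw [h0] at hlen
    simp at hlen
  intro x hx
  have h1 := hl.2 x hx p (hsub p hp)
  rw [Prod.dist_eq, max_lt_iff] at h1
  have h2 := dist_ev_lt (hl.1 x hx).1 h1.1 h1.2
  have h3 := hall p hp
  have h4 := dist_triangle (x.1 x.2) (p.1 p.2) x₃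
  have h5 : (0 : ℝ) < δ := dist_nonneg.trans_lt h1.1
  linarith

/-- `aL` is a cocycle on small lists. -/
theorem dl_aL (h : LS.UniqSeg M ρ) (hr : 0 < r) (hrρ : r < ρ) (h2δ : 2 * δ ≤ εt)
    (h4δ : 4 * δ ≤ r - r₀)
    (htau1 : ∀ l : List (M × M), l.length = n + 2 → SmL univ εt l → dl tau l = 0)
    (htau0 : ∀ l : List (M × M), l.length = n + 1 → SmL univ εt l →
      (∃ p ∈ l, r₀ ≤ dist p.1 p.2) → tau l = 0)
    (hom1 : ∀ l : List (ℝ →ᵇ M), l.length = b + 2 → SmL (P x₀ x₃ (C' + r)) εo l → dl om l = 0)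
    (hcut : ∀ w ∈ P x₀ x₁ C, ∀ w' ∈ P x₀ x₁ C, ∀ σ σ' : ℝ, dist (w σ) x₃ ≤ r →
      dist (w' σ') x₃ ≤ r → dist w w' < δ → |σ - σ'| < δ →
      dist (splice r w (cst x₃) σ 0) (splice r w' (cst x₃) σ' 0) < εo)
    {l : List ((ℝ →ᵇ M) × ℝ)} (hl : SmL (P x₀ x₁ C ×ˢ Icc 0 C') δ l)
    (hlen : l.length = n + b + 2) : dl (aL n tau om r x₃) l = 0 := by
  rw [aL_eq_cup, dl_cup n _ _ _ (by omega)]
  have e1 : dl (fun l => tau (l.map (pL x₃))) (l.take (n + 2)) = 0 := by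
    rw [dl_map]
    refine htau1 _ (by rw [List.length_map, List.length_take]; omega)
      (SmL_map (fun _ _ => mem_univ _) fun x hx y hy => ?_)
    have hx' := List.mem_of_mem_take hx
    have hy' := List.mem_of_mem_take hy
    exact (pL_near (hl.1 x hx').1 (hl.2 x hx' y hy')).trans_le h2δ
  have e2 : cup (n + 1) (dl fun l => tau (l.map (pL x₃))) (fun l => om (l.map (cL r x₃))) l = 0 := by
    rw [cup, show n + 1 + 1 = n + 2 from rfl, e1, zero_mul]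
  rw [e2, zero_add]
  by_cases ht : tau ((l.take (n + 1)).map (pL x₃)) = 0
  · rw [cup, ht, zero_mul, mul_zero]
  have hnear := near_of_tauL h2δ h4δ htau0 hl (by omega) ht
  have e3 : dl (fun l => om (l.map (cL r x₃))) (l.drop n) = 0 := by
    rw [dl_map]
    have hsub : ∀ x ∈ l.drop n, x ∈ l := fun x hx => List.mem_of_mem_drop hx
    refine hom1 _ (by rw [List.length_map, List.length_drop]; omega)
      (SmL_map (fun x hx => ?_) fun x hx y hy => ?_)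
    · have hx' := hl.1 x (hsub x hx)
      refine P_mono ?_ (splice_mem (t := 0) h hr hrρ hx'.1.1 (lip_cst x₃)
        (by rw [cst_apply]; exact hnear x (hsub x hx)) hx'.2.1 le_rfl hx'.1.2.1
        (fun _ _ => cst_apply _ _))
      linarith [hx'.2.2]
    · have h1 := hl.2 x (hsub x hx) y (hsub y hy)
      rw [Prod.dist_eq, max_lt_iff, Real.dist_eq] at h1
      exact hcut x.1 (hl.1 x (hsub x hx)).1 y.1 (hl.1 y (hsub y hy)).1 x.2 y.2
        (hnear x (hsub x hx)) (hnear y (hsub y hy)) h1.1 h1.2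
  rw [cup, e3, mul_zero, mul_zero]

/-- A change of `om` by a coboundary is not seen by cycles. -/
theorem ev_aL_dl (hn : 1 ≤ n) (hb : 1 ≤ b) (hm : m + 1 = n + b) (ntau : Nrm tau)
    (h2δ : 2 * δ ≤ εt)
    (htau1 : ∀ l : List (M × M), l.length = n + 2 → SmL univ εt l → dl tau l = 0)
    (g : List (ℝ →ᵇ M) → k) {z : Ch k (ℝ →ᵇ M)}
    (hz : z ∈ Sp k (fun l => l.length = m + 1 ∧ SmL (P x₀ x₁ C) δ l)) (hbz : bd z = 0)
    {ι : Ch k ℝ} (hι : ι ∈ Sp k (fun l => l.length = 2 ∧ SmL (Icc 0 C') δ l)) (hCC : C ≤ C')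
    (hbι : bd ι = single [C'] 1 - single [0] 1) :
    ev (aL n tau (dl g) r x₃) (sh z ι) = 0 := by
  have hzι : sh z ι ∈ Sp k (fun l => l.length = m + 1 + 1 ∧ SmL (P x₀ x₁ C ×ˢ Icc 0 C') δ l) :=
    Sp_SmL_sh (q := 1) hz hι
  have hzn : z ∈ Sp k (Ln (m + 1)) := Sp_mono (fun l hl => hl.1) hz
  -- the primitive
  set F : List ((ℝ →ᵇ M) × ℝ) → k :=
    cup n (fun l => tau (l.map (pL x₃))) (fun l => g (l.map (cL r x₃))) with hF
  have h1 : ev (aL n tau (dl g) r x₃) (sh z ι) = (-1 : k) ^ n * ev (dl F) (sh z ι) := by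
    rw [← ev_smul_fun]
    refine ev_congr (fun l hl => ?_) hzι
    have hll : l.length = m + 1 + 1 := hl.1
    have hlS : SmL (P x₀ x₁ C ×ˢ Icc 0 C') δ l := hl.2
    rw [aL_eq_cup, hF, dl_cup n _ _ _ (by omega)]
    have e1 : dl (fun l => tau (l.map (pL x₃))) (l.take (n + 2)) = 0 := by
      rw [dl_map]
      refine htau1 _ (by rw [List.length_map, List.length_take]; omega)
        (SmL_map (fun _ _ => mem_univ _) fun x hx y hy => ?_)
      have hx' := List.mem_of_mem_take hx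
      have hy' := List.mem_of_mem_take hy
      exact (pL_near (hlS.1 x hx').1 (hlS.2 x hx' y hy')).trans_le h2δ
    have e2 : cup (n + 1) (dl fun l => tau (l.map (pL x₃))) (fun l => g (l.map (cL r x₃))) l =
        0 := by
      rw [cup, show n + 1 + 1 = n + 2 from rfl, e1, zero_mul]
    rw [e2, zero_add, ← mul_assoc, ← pow_add, ← two_mul, pow_mul]
    simp only [even_two, Even.neg_pow, one_pow, one_mul]
    rw [cup, cup, dl_map]
  have h2 : bd (sh z ι) = (-1 : k) ^ m • (mp (fun p => (p, C')) z - mp (fun p => (p, (0 : ℝ))) z) := by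
    rw [bd_sh (p := m) (q := 1) (by omega) hzn (Sp_mono (fun l hl => hl.1) hι), hbz, map_zero,
      LinearMap.zero_apply, zero_add, hbι, map_sub, sh_point_right C' (Ln_ne hzn),
      sh_point_right 0 (Ln_ne hzn)]
  have h3 : ∀ τ : ℝ, (∀ p ∈ P x₀ x₁ C, pL x₃ (p, τ) = (x₁, x₃)) ∨
      (∀ p ∈ P x₀ x₁ C, pL x₃ (p, τ) = (x₀, x₃)) → ev F (mp (fun p => (p, τ)) z) = 0 := by
    intro τ hτ
    rw [ev_mp]
    refine ev_zero_of (fun l hl => ?_) hz
    have hll : l.length = m + 1 := hl.1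
    rw [hF, cup]
    have : tau (((l.map fun p => (p, τ)).take (n + 1)).map (pL x₃)) = 0 := by
      rw [← List.map_take, List.map_map]
      rcases hτ with hτ | hτ
      · exact Nrm.const (c := (x₁, x₃)) ntau (by rw [List.length_take]; omega)
          fun x hx => hτ x (hl.2.1 x (List.mem_of_mem_take hx))
      · exact Nrm.const (c := (x₀, x₃)) ntau (by rw [List.length_take]; omega)
          fun x hx => hτ x (hl.2.1 x (List.mem_of_mem_take hx))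
    rw [this, zero_mul]
  rw [h1, ev_dl, h2, map_smul, map_sub, h3 C' (Or.inl fun p hp => by
      simp only [pL]; rw [eq_right hp hCC]), h3 0 (Or.inr fun p hp => by
      simp only [pL]; rw [eq_left hp le_rfl]), sub_zero, smul_zero, mul_zero]

/-- Fine subdivided intervals, `SmL` form. -/
theorem exists_seg' (k : Type) [Field k] {a b δ : ℝ} (hab : a ≤ b) (hδ : 0 < δ) :
    ∃ c : Ch k ℝ, c ∈ Sp k (fun l => l.length = 2 ∧ SmL (Icc a b) δ l) ∧
      bd c = single [b] 1 - single [a] 1 := by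
  obtain ⟨N, -, h1, h2, h3⟩ := exists_seg k hab (half_pos hδ)
  exact ⟨seg k a b N, Sp_mono (fun l hl => ⟨hl.1, hl.2.1, fun x hx y hy =>
    (hl.2.2 x hx y hy).trans_lt (half_lt_self hδ)⟩) (and_mem h2 h1), h3⟩

/-- **Independence of the mesh and of the length.** `hcyc` = `cycle_bd` of the interval. -/
theorem ev_aL_mesh (h : LS.UniqSeg M ρ) (hr : 0 < r) (hrρ : r < ρ) (hn : 1 ≤ n)
    (hm : m + 1 = n + b) (ntau : Nrm tau) (hδ : 0 < δ) (h2δ : 2 * δ ≤ εt) (h4δ : 4 * δ ≤ r - r₀)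
    (htau1 : ∀ l : List (M × M), l.length = n + 2 → SmL univ εt l → dl tau l = 0)
    (htau0 : ∀ l : List (M × M), l.length = n + 1 → SmL univ εt l →
      (∃ p ∈ l, r₀ ≤ dist p.1 p.2) → tau l = 0)
    (hom1 : ∀ l : List (ℝ →ᵇ M), l.length = b + 2 → SmL (P x₀ x₃ (C' + r)) εo l → dl om l = 0)
    (hcut : ∀ w ∈ P x₀ x₁ C, ∀ w' ∈ P x₀ x₁ C, ∀ σ σ' : ℝ, dist (w σ) x₃ ≤ r →
      dist (w' σ') x₃ ≤ r → dist w w' < δ → |σ - σ'| < δ →
      dist (splice r w (cst x₃) σ 0) (splice r w' (cst x₃) σ' 0) < εo)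
    (hcyc : ∀ c : Ch k ℝ, c ∈ Sp k (fun l => l.length = 2 ∧ SmL (Icc 0 C') δ l) → bd c = 0 →
      ∃ e ∈ Sp k (fun l => l.length = 3 ∧ SmL (Icc 0 C') δ l), bd e = c)
    {z : Ch k (ℝ →ᵇ M)}
    (hz : z ∈ Sp k (fun l => l.length = m + 1 ∧ SmL (P x₀ x₁ C) δ l)) (hbz : bd z = 0)
    (hC : 0 ≤ C) (hCC : C ≤ C')
    {ι : Ch k ℝ} (hι : ι ∈ Sp k (fun l => l.length = 2 ∧ SmL (Icc 0 C) δ l))
    (hbι : bd ι = single [C] 1 - single [0] 1)
    {ι₀ : Ch k ℝ} (hι₀ : ι₀ ∈ Sp k (fun l => l.length = 2 ∧ SmL (Icc 0 C') δ l))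
    (hbι₀ : bd ι₀ = single [C'] 1 - single [0] 1) :
    ev (aL n tau om r x₃) (sh z ι) = ev (aL n tau om r x₃) (sh z ι₀) := by
  obtain ⟨κ, hκ, hbκ⟩ := exists_seg' k hCC hδ
  have hzn : z ∈ Sp k (Ln (m + 1)) := Sp_mono (fun l hl => hl.1) hz
  have hm1 : ι ∈ Sp k (fun l => l.length = 2 ∧ SmL (Icc 0 C') δ l) :=
    Sp_mono (fun l hl => ⟨hl.1, hl.2.mono (Icc_subset_Icc_right hCC) le_rfl⟩) hι
  have hm2 : κ ∈ Sp k (fun l => l.length = 2 ∧ SmL (Icc 0 C') δ l) :=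
    Sp_mono (fun l hl => ⟨hl.1, hl.2.mono (Icc_subset_Icc_left hC) le_rfl⟩) hκ
  obtain ⟨e, he, hbe⟩ := hcyc (ι₀ - ι - κ) (Submodule.sub_mem _ (Submodule.sub_mem _ hι₀ hm1) hm2)
    (by rw [map_sub, map_sub, hbι₀, hbι, hbκ]; abel)
  have h1 : ev (aL n tau om r x₃) (sh z (bd e)) = 0 := by
    have h2 := bd_sh (p := m) (q := 2) (by omega) hzn (Sp_mono (fun l hl => hl.1) he)
    rw [hbz, map_zero, LinearMap.zero_apply, zero_add] at h2
    have h3 : ev (dl (aL n tau om r x₃)) (sh z e) = 0 :=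
      ev_zero_of (fun l hl => dl_aL (C := C) (C' := C') h hr hrρ h2δ h4δ htau1 htau0 hom1 hcut
        hl.2 (by rw [hl.1]; omega)) (Sp_SmL_sh (q := 2) hz he)
    rw [ev_dl, h2, map_smul, smul_eq_mul] at h3
    rcases mul_eq_zero.1 h3 with h4 | h4
    · exact absurd h4 (pow_ne_zero _ (neg_ne_zero.2 one_ne_zero))
    · exact h4
  have h5 : ev (aL n tau om r x₃) (sh z κ) = 0 :=
    ev_zero_of (fun l hl => aL_tail (x₀ := x₀) (x₁ := x₁) (C := C) hn ntau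
      (by rw [hl.1]; omega) fun x hx => ⟨(hl.2.1 x hx).1, (hl.2.1 x hx).2.1⟩)
      (Sp_SmL_sh (q := 1) hz hκ)
  rw [hbe, map_sub, map_sub, map_sub, map_sub, h5, sub_zero, sub_eq_zero] at h1
  exact h1.symm

/-- **The number of the first edge**: for `om` replaced by `om - dl g`. -/
theorem ev_aL_eq (h : LS.UniqSeg M ρ) (hr : 0 < r) (hrρ : r < ρ) (hn : 1 ≤ n) (hb : 1 ≤ b)
    (hm : m + 1 = n + b) (ntau : Nrm tau) (hδ : 0 < δ) (h2δ : 2 * δ ≤ εt) (h4δ : 4 * δ ≤ r - r₀)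
    (htau1 : ∀ l : List (M × M), l.length = n + 2 → SmL univ εt l → dl tau l = 0)
    (htau0 : ∀ l : List (M × M), l.length = n + 1 → SmL univ εt l →
      (∃ p ∈ l, r₀ ≤ dist p.1 p.2) → tau l = 0)
    (hom1 : ∀ l : List (ℝ →ᵇ M), l.length = b + 2 → SmL (P x₀ x₃ (C' + r)) εo l → dl om l = 0)
    (hcut : ∀ w ∈ P x₀ x₁ C, ∀ w' ∈ P x₀ x₁ C, ∀ σ σ' : ℝ, dist (w σ) x₃ ≤ r →
      dist (w' σ') x₃ ≤ r → dist w w' < δ → |σ - σ'| < δ →
      dist (splice r w (cst x₃) σ 0) (splice r w' (cst x₃) σ' 0) < εo)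
    (hcyc : ∀ c : Ch k ℝ, c ∈ Sp k (fun l => l.length = 2 ∧ SmL (Icc 0 C') δ l) → bd c = 0 →
      ∃ e ∈ Sp k (fun l => l.length = 3 ∧ SmL (Icc 0 C') δ l), bd e = c)
    (g : List (ℝ →ᵇ M) → k) {z : Ch k (ℝ →ᵇ M)}
    (hz : z ∈ Sp k (fun l => l.length = m + 1 ∧ SmL (P x₀ x₁ C) δ l)) (hbz : bd z = 0)
    (hC : 0 ≤ C) (hCC : C ≤ C')
    {ι : Ch k ℝ} (hι : ι ∈ Sp k (fun l => l.length = 2 ∧ SmL (Icc 0 C) δ l))
    (hbι : bd ι = single [C] 1 - single [0] 1)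
    {ι₀ : Ch k ℝ} (hι₀ : ι₀ ∈ Sp k (fun l => l.length = 2 ∧ SmL (Icc 0 C') δ l))
    (hbι₀ : bd ι₀ = single [C'] 1 - single [0] 1) :
    ev (aL n tau (fun l => om l - dl g l) r x₃) (sh z ι) = ev (aL n tau om r x₃) (sh z ι₀) := by
  rw [ev_aL_sub, ev_aL_dl (C := C) (C' := C) hn hb hm ntau h2δ htau1 g hz hbz hι le_rfl hbι,
    sub_zero]
  exact ev_aL_mesh h hr hrρ hn hm ntau hδ h2δ h4δ htau1 htau0 hom1 hcut hcyc hz hbz hC hCC hι hbι
    hι₀ hbι₀

end Vale.Agent.P216.Sg
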