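import Vale.Agent.P216.N970.Fibre
import Vale.Agent.P216.H787.Cls
import Vale.Agent.P216.H971.Mesh

/-!
# Fine cycles detecting a class with respect to the integrand `aL`
-/

open Set Finsupp Topology BoundedContinuousFunction

namespace Vale.Agent.P216.Sg

open Sl PS

variable {k : Type} [Field k] {M : Type} [MetricSpace M] [CompactSpace M]
variable {x₀ x₁ x₃ : M} {C C' r ρ δ : ℝ} {n b m : ℕ} {tau : List (M × M) → k}
  {om g F : List (ℝ →ᵇ M) → k} {r₀ εt εo : ℝ}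

/-- If `F` is not exact, and is on fine cycles the integral of `tau ∪ om`, then there are
arbitrarily fine cycles on which the integral of `tau ∪ (om - dl g)` is `1`. -/
theorem det_of (hn : 1 ≤ n) (hm : m + 1 = n + b) (hm0 : m ≠ 0) (ntau : Nrm tau) (hεt : 0 < εt)
    (htau1 : ∀ l : List (M × M), l.length = n + 2 → SmL univ εt l → dl tau l = 0)
    (hg : b = 0 → g = fun _ => 0) (hC : 0 ≤ C) (hne : ¬ ExL (P x₀ x₁ C) m F)
    (heval : ∃ δ > 0, ∀ z : Ch k (ℝ →ᵇ M),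
      z ∈ Sp k (fun l => l.length = m + 1 ∧ SmL (P x₀ x₁ C) δ l) → bd z = 0 →
      ∀ ι : Ch k ℝ, ι ∈ Sp k (fun l => l.length = 2 ∧ SmL (Icc 0 C) δ l) →
      bd ι = single [C] 1 - single [0] 1 → ev F z = ev (aL n tau om r x₃) (sh z ι))
    (δ : ℝ) (hδ : 0 < δ) :
    ∃ z : Ch k (ℝ →ᵇ M), z ∈ Sp k (fun l => l.length = m + 1 ∧ SmL (P x₀ x₁ C) δ l) ∧
      bd z = 0 ∧ ∃ ι : Ch k ℝ, ι ∈ Sp k (fun l => l.length = 2 ∧ SmL (Icc 0 C) δ l) ∧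
      bd ι = single [C] 1 - single [0] 1 ∧
      ev (aL n tau (fun l => om l - dl g l) r x₃) (sh z ι) = 1 := by
  obtain ⟨δ₀, hδ₀, hev⟩ := heval
  set δ' := min (min δ δ₀) (εt / 2) with hδ'
  have h0 : 0 < δ' := lt_min (lt_min hδ hδ₀) (by linarith)
  have h1 : δ' ≤ δ := (min_le_left _ _).trans (min_le_left _ _)
  have h2 : δ' ≤ δ₀ := (min_le_left _ _).trans (min_le_right _ _)
  have h3 : 2 * δ' ≤ εt := by
    have : δ' ≤ εt / 2 := min_le_right _ _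
    linarith
  have hno : ¬ ∃ g' : List (ℝ →ᵇ M) → k, ∀ l, (l.length = m + 1 ∧ SmL (P x₀ x₁ C) δ' l) →
      F l = dl g' l := by
    rintro ⟨g', hg'⟩
    exact hne ⟨g', fun h => absurd h hm0, δ', h0, fun l hl hs => hg' l ⟨hl, hs⟩⟩
  obtain ⟨z, hz, hbz, hz1⟩ := exists_cycle hno
  obtain ⟨ι, hι, hbι⟩ := exists_seg' k hC h0
  have mono1 : ∀ {δ₂ : ℝ}, δ' ≤ δ₂ → z ∈ Sp k (fun l => l.length = m + 1 ∧
      SmL (P x₀ x₁ C) δ₂ l) := fun h => Sp_mono (fun l hl => ⟨hl.1, hl.2.mono le_rfl h⟩) hz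
  have mono2 : ∀ {δ₂ : ℝ}, δ' ≤ δ₂ → ι ∈ Sp k (fun l => l.length = 2 ∧ SmL (Icc 0 C) δ₂ l) :=
    fun h => Sp_mono (fun l hl => ⟨hl.1, hl.2.mono le_rfl h⟩) hι
  refine ⟨z, mono1 h1, hbz, ι, mono2 h1, hbι, ?_⟩
  have e0 : ev (aL n tau (dl g) r x₃) (sh z ι) = 0 := by
    rcases Nat.eq_zero_or_pos b with hb | hb
    · rw [hg hb]
      refine ev_zero_of (P := fun _ => True) (fun l _ => ?_) (by simp [Finsupp.mem_supported])
      rw [aL, PS.dl_zero_fun, mul_zero]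
    · exact ev_aL_dl (C := C) (C' := C) hn hb hm ntau h3 htau1 g hz hbz hι le_rfl hbι
  rw [ev_aL_sub, e0, sub_zero, ← hev z (mono1 h2) hbz ι (mono2 h2) hbι, hz1]

/-- `ev_aL_mesh` with `cycle_bd` plugged in. -/
theorem ev_aL_mesh' (h : LS.UniqSeg M ρ) (hr : 0 < r) (hrρ : r < ρ) (hn : 1 ≤ n)
    (hm : m + 1 = n + b) (ntau : Nrm tau) (hδ : 0 < δ) (h2δ : 2 * δ ≤ εt) (h4δ : 4 * δ ≤ r - r₀)
    (htau1 : ∀ l : List (M × M), l.length = n + 2 → SmL univ εt l → dl tau l = 0)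
    (htau0 : ∀ l : List (M × M), l.length = n + 1 → SmL univ εt l →
      (∃ p ∈ l, r₀ ≤ dist p.1 p.2) → tau l = 0)
    (hom1 : ∀ l : List (ℝ →ᵇ M), l.length = b + 2 → SmL (P x₀ x₃ (C' + r)) εo l → dl om l = 0)
    (hcut : ∀ w ∈ P x₀ x₁ C, ∀ w' ∈ P x₀ x₁ C, ∀ σ σ' : ℝ, dist (w σ) x₃ ≤ r →
      dist (w' σ') x₃ ≤ r → dist w w' < δ → |σ - σ'| < δ →
      dist (splice r w (cst x₃) σ 0) (splice r w' (cst x₃) σ' 0) < εo)
    {z : Ch k (ℝ →ᵇ M)}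
    (hz : z ∈ Sp k (fun l => l.length = m + 1 ∧ SmL (P x₀ x₁ C) δ l)) (hbz : bd z = 0)
    (hC : 0 ≤ C) (hCC : C ≤ C')
    {ι : Ch k ℝ} (hι : ι ∈ Sp k (fun l => l.length = 2 ∧ SmL (Icc 0 C) δ l))
    (hbι : bd ι = single [C] 1 - single [0] 1)
    {ι₀ : Ch k ℝ} (hι₀ : ι₀ ∈ Sp k (fun l => l.length = 2 ∧ SmL (Icc 0 C') δ l))
    (hbι₀ : bd ι₀ = single [C'] 1 - single [0] 1) :
    ev (aL n tau om r x₃) (sh z ι) = ev (aL n tau om r x₃) (sh z ι₀) :=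
  ev_aL_mesh h hr hrρ hn hm ntau hδ h2δ h4δ htau1 htau0 hom1 hcut
    (fun _ hc hb => H971.cycle_bd hc hb) hz hbz hC hCC hι hbι hι₀ hbι₀

end Vale.Agent.P216.Sg
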