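import Vale.Agent.P216.N970.SwapOn
import Vale.Agent.P216.H787.Fib
import Vale.Agent.P216.H311.Points

/-!
# The crossing-swap identity on the Moore-Lipschitz path spaces
-/

open Set Finsupp Topology BoundedContinuousFunction

namespace Vale.Agent.P216.Sg

open Sl PS

variable {k : Type} [Field k] {M : Type} [MetricSpace M]
variable {x₀ x₁ x₂ x₃ : M} {C t r ρ δ : ℝ}

/-! ### Small moves of the points -/

theorem dist_ev_lt {a b : M} {s τ τ' δ : ℝ} {w w' : ℝ →ᵇ M} (hw : w ∈ P a b s)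
    (h : dist w w' < δ) (hτ : dist τ τ' < δ) : dist (w τ) (w' τ') < 2 * δ := by
  have h1 := hw.1 τ τ'
  have h2 : dist (w τ') (w' τ') ≤ dist w w' := BoundedContinuousFunction.dist_coe_le_dist τ'
  rw [Real.dist_eq] at hτ
  linarith [dist_triangle (w τ) (w τ') (w' τ')]

theorem dist_parts {p p' : PT M} (h : dist p p' < δ) :
    dist p.1.1 p'.1.1 < δ ∧ dist p.1.2 p'.1.2 < δ ∧ dist p.2.1 p'.2.1 < δ ∧
      dist p.2.2 p'.2.2 < δ := by
  rw [Prod.dist_eq, max_lt_iff, Prod.dist_eq, Prod.dist_eq, max_lt_iff, max_lt_iff] at h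
  exact ⟨h.1.1, h.1.2, h.2.1, h.2.2⟩

theorem cr_near {p p' : PT M} (hp : p ∈ Dom x₀ x₁ x₂ x₃ C t) (h : dist p p' < δ) :
    dist (cr p) (cr p') < 2 * δ := by
  obtain ⟨h1, h2, h3, h4⟩ := dist_parts h
  rw [Prod.dist_eq]
  exact max_lt (dist_ev_lt hp.1.1 h1 h2) (dist_ev_lt hp.2.2 h4 h3)

theorem cr_dist {p p' : PT M} (hp : p ∈ Dom x₀ x₁ x₂ x₃ C t) (h : dist p p' < δ) :
    dist (cr p').1 (cr p').2 < dist (cr p).1 (cr p).2 + 4 * δ := by
  obtain ⟨h1, h2, h3, h4⟩ := dist_parts h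
  have e1 : dist (cr p).1 (cr p').1 < 2 * δ := dist_ev_lt hp.1.1 h1 h2
  have e2 : dist (cr p).2 (cr p').2 < 2 * δ := dist_ev_lt hp.2.2 h4 h3
  have e3 := dist_triangle4 (cr p').1 (cr p).1 (cr p).2 (cr p').2
  rw [dist_comm (cr p').1 (cr p).1] at e3
  linarith

section

variable {n b d : ℕ} {tau : List (M × M) → k} {om eta : List (ℝ →ᵇ M) → k}
  {r₀ εt εo εe c' : ℝ}

theorem SmL_map {E E' : Type} [PseudoMetricSpace E'] 
    {X' : Set E'} {ε : ℝ} {f : E → E'} {l : List E}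
    (hf : ∀ x ∈ l, f x ∈ X') (hd : ∀ x ∈ l, ∀ y ∈ l, dist (f x) (f y) < ε) :
    SmL X' ε (l.map f) := by
  constructor
  · intro x hx
    obtain ⟨y, hy, rfl⟩ := List.mem_map.1 hx
    exact hf y hy
  · intro x hx x' hx'
    obtain ⟨y, hy, rfl⟩ := List.mem_map.1 hx
    obtain ⟨y', hy', rfl⟩ := List.mem_map.1 hx'
    exact hd y hy y' hy'

theorem SmL_sub {E : Type} [PseudoMetricSpace E] {X : Set E} {δ : ℝ} {l l' : List E}
    (h : SmL X δ l) (hl : ∀ x ∈ l', x ∈ l) : SmL X δ l' :=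
  ⟨fun x hx => h.1 x (hl x hx), fun x hx y hy => h.2 x (hl x hx) y (hl y hy)⟩

/-- (A) If `tau` does not vanish on the front, all entries are near the diagonal. -/
theorem near_of_tau (h2δ : 2 * δ ≤ εt) (h4δ : 4 * δ ≤ r - r₀)
    (htau0 : ∀ l : List (M × M), l.length = n + 1 → SmL univ εt l →
      (∃ p ∈ l, r₀ ≤ dist p.1 p.2) → tau l = 0)
    {l : List (PT M)} (hl : SmL (Dom x₀ x₁ x₂ x₃ C t) δ l) (hn : n + 1 ≤ l.length)
    (h : tau ((l.take (n + 1)).map cr) ≠ 0) : ∀ p ∈ l, p ∈ Nr x₀ x₁ x₂ x₃ C t r := by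
  have hsub : ∀ x ∈ l.take (n + 1), x ∈ l := fun x hx => List.mem_of_mem_take hx
  have hsm : SmL univ εt ((l.take (n + 1)).map cr) :=
    SmL_map (fun _ _ => mem_univ _) fun x hx y hy =>
      (cr_near (hl.1 x (hsub x hx)) (hl.2 x (hsub x hx) y (hsub y hy))).trans_le h2δ
  have hlen : ((l.take (n + 1)).map (cr : PT M → M × M)).length = n + 1 := by
    rw [List.length_map, List.length_take]; omega
  have hall : ∀ p ∈ l.take (n + 1), dist (cr p).1 (cr p).2 < r₀ := by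
    intro p hp
    by_contra hc
    exact h (htau0 _ hlen hsm ⟨cr p, List.mem_map_of_mem hp, not_lt.1 hc⟩)
  obtain ⟨p, hp⟩ : ∃ p, p ∈ l.take (n + 1) := by
    apply List.exists_mem_of_ne_nil
    intro h0
    rw [h0] at hlen
    simp at hlen
  intro p' hp'
  refine ⟨hl.1 p' hp', ?_⟩
  have h1 := cr_dist (hl.1 p (hsub p hp)) (hl.2 p (hsub p hp) p' hp')
  have h2 := hall p hp
  linarith

variable [CompactSpace M]

/-- (C) If `om` does not vanish, all entries have times `c' < τ - σ + r + t + 2 δ`. -/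
theorem time_of_om (h : LS.UniqSeg M ρ) (hr : 0 < r) (hrρ : r < ρ)
    (hom0 : ∀ l : List (ℝ →ᵇ M), l.length = b + 1 → SmL (P x₀ x₃ c') εo l → om l = 0)
    (hδo : ∀ p ∈ Nr x₀ x₁ x₂ x₃ C t r, ∀ p' ∈ Nr x₀ x₁ x₂ x₃ C t r, dist p p' < δ →
      dist (sw2 r p) (sw2 r p') < εo)
    {l l' : List (PT M)} (hl : SmL (Dom x₀ x₁ x₂ x₃ C t) δ l)
    (hnear : ∀ p ∈ l, p ∈ Nr x₀ x₁ x₂ x₃ C t r) (hsub : ∀ p ∈ l', p ∈ l)
    (hlen : l'.length = b + 1) (hom : om (l'.map (sw2 r)) ≠ 0) :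
    ∀ p ∈ l, c' < p.1.2 + r + (t - p.2.1) + 2 * δ := by
  by_contra hc
  push Not at hc
  obtain ⟨p, hp, hpc⟩ := hc
  refine hom (hom0 _ (by rw [List.length_map, hlen]) (SmL_map ?_ ?_))
  · intro x hx
    have h1 := sw2_mem h hr hrρ (hnear x (hsub x hx))
    refine P_mono ?_ h1
    obtain ⟨-, h2, h3, -⟩ := dist_parts (hl.2 x (hsub x hx) p hp)
    rw [Real.dist_eq, abs_lt] at h2 h3
    linarith [h2.2, h3.1]
  · intro x hx y hy
    exact hδo x (hnear x (hsub x hx)) y (hnear y (hsub y hy)) (hl.2 x (hsub x hx) y (hsub y hy))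

end

variable [CompactSpace M] {n b m d : ℕ} {tau : List (M × M) → k} {om eta : List (ℝ →ᵇ M) → k}
  {r₀ εt εo εe c' s : ℝ}

/-- The integrand of the swap identity is a cocycle on the small lists of the domain. -/
theorem dl_psi_zero (h : LS.UniqSeg M ρ) (hr : 0 < r) (hrρ : r < ρ)
    (hs : C + 2 * r + t - c' + 2 * δ ≤ s) (h2δ : 2 * δ ≤ εt) (h4δ : 4 * δ ≤ r - r₀)
    (htau1 : ∀ l : List (M × M), l.length = n + 2 → SmL univ εt l → dl tau l = 0)
    (htau0 : ∀ l : List (M × M), l.length = n + 1 → SmL univ εt l →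
      (∃ p ∈ l, r₀ ≤ dist p.1 p.2) → tau l = 0)
    (hom1 : ∀ l : List (ℝ →ᵇ M), l.length = b + 2 → SmL (P x₀ x₃ (C + r + t)) εo l →
      dl om l = 0)
    (hom0 : ∀ l : List (ℝ →ᵇ M), l.length = b + 1 → SmL (P x₀ x₃ c') εo l → om l = 0)
    (heta : ∀ l : List (ℝ →ᵇ M), l.length = d + 2 → SmL (P x₂ x₁ s) εe l → dl eta l = 0)
    (hδo : ∀ p ∈ Nr x₀ x₁ x₂ x₃ C t r, ∀ p' ∈ Nr x₀ x₁ x₂ x₃ C t r, dist p p' < δ →
      dist (sw2 r p) (sw2 r p') < εo)
    (hδe : ∀ p ∈ Nr x₀ x₁ x₂ x₃ C t r, ∀ p' ∈ Nr x₀ x₁ x₂ x₃ C t r, dist p p' < δ →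
      dist (sw1 r p) (sw1 r p') < εe)
    {l : List (PT M)} (hlen : l.length = n + b + d + 2) (hl : SmL (Dom x₀ x₁ x₂ x₃ C t) δ l) :
    dl (psi n b tau om eta cr (sw2 r) (sw1 r)) l = 0 := by
  refine dl_psi (by omega) ?_ (fun ht => ?_) (fun ht ho => ?_)
  · refine htau1 _ (by rw [List.length_map, List.length_take]; omega) ?_
    have hsub : ∀ x ∈ l.take (n + 2), x ∈ l := fun x hx => List.mem_of_mem_take hx
    exact SmL_map (fun _ _ => mem_univ _) fun x hx y hy =>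
      (cr_near (hl.1 x (hsub x hx)) (hl.2 x (hsub x hx) y (hsub y hy))).trans_le h2δ
  · have hnear := near_of_tau h2δ h4δ htau0 hl (by omega) ht
    have hsub : ∀ x ∈ (l.drop n).take (b + 2), x ∈ l := fun x hx =>
      List.mem_of_mem_drop (List.mem_of_mem_take hx)
    refine hom1 _ (by rw [List.length_map, List.length_take, List.length_drop]; omega)
      (SmL_map (fun x hx => sw2_mem' h hr hrρ (hnear x (hsub x hx)))
      fun x hx y hy => hδo x (hnear x (hsub x hx)) y (hnear y (hsub y hy))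
        (hl.2 x (hsub x hx) y (hsub y hy)))
  · have hnear := near_of_tau h2δ h4δ htau0 hl (by omega) ht
    have htime := time_of_om (b := b) h hr hrρ hom0 hδo hl hnear
      (l' := (l.drop n).take (b + 1))
      (fun x hx => List.mem_of_mem_drop (List.mem_of_mem_take hx))
      (by rw [List.length_take, List.length_drop]; omega) ho
    have hsub : ∀ x ∈ l.drop (n + b), x ∈ l := fun x hx => List.mem_of_mem_drop hx
    refine heta _ (by rw [List.length_map, List.length_drop]; omega)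
      (SmL_map (fun x hx => ?_)
      fun x hx y hy => hδe x (hnear x (hsub x hx)) y (hnear y (hsub y hy))
        (hl.2 x (hsub x hx) y (hsub y hy)))
    refine P_mono ?_ (sw1_mem h hr hrρ (hnear x (hsub x hx)))
    have := htime x (hsub x hx)
    linarith

/-- The first output: the integrand on the edge `σ = t`. -/
noncomputable def aL (n : ℕ) (tau : List (M × M) → k) (om : List (ℝ →ᵇ M) → k) (r : ℝ) (x₃ : M)
    (ξ : List ((ℝ →ᵇ M) × ℝ)) : k :=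
  tau ((ξ.take (n + 1)).map fun x => (x.1 x.2, x₃)) *
    om ((ξ.drop n).map fun x => splice r x.1 (cst x₃) x.2 0)

/-- The integrand on the edge `τ = 0`. -/
noncomputable def aR (n : ℕ) (tau : List (M × M) → k) (om : List (ℝ →ᵇ M) → k) (r : ℝ) (x₀ : M)
    (β : List (ℝ × (ℝ →ᵇ M))) : k :=
  tau ((β.take (n + 1)).map fun x => (x₀, x.2 x.1)) *
    om ((β.drop n).map fun x => splice r (cst x₀) x.2 0 x.1)

theorem getLastD_mem {α : Type} {l : List α} (a : α) (h : l ≠ []) : l.getLastD a ∈ l := by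
  rcases List.eq_nil_or_concat l with rfl | ⟨l', x, rfl⟩
  · exact absurd rfl h
  · rw [List.concat_eq_append, List.getLastD_concat]
    simp

theorem Sp_SmL_sh {α β : Type} [PseudoMetricSpace α] [PseudoMetricSpace β] {S : Set α}
    {S' : Set β} {p q : ℕ} {c : Ch k α} {c₂ : Ch k β}
    (hc : c ∈ Sp k (fun l => l.length = p + 1 ∧ SmL S δ l))
    (hc₂ : c₂ ∈ Sp k (fun l => l.length = q + 1 ∧ SmL S' δ l)) :
    sh c c₂ ∈ Sp k (fun l => l.length = p + q + 1 ∧ SmL (S ×ˢ S') δ l) :=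
  sh_mem (fun s t l hs ht hl => ⟨by have := hl.1; omega,
    fun x hx => ⟨hs.2.1 _ (hl.2 x hx).1, ht.2.1 _ (hl.2 x hx).2⟩, fun x hx y hy => by
      rw [Prod.dist_eq]
      exact max_lt (hs.2.2 _ (hl.2 x hx).1 _ (hl.2 y hy).1)
        (ht.2.2 _ (hl.2 x hx).2 _ (hl.2 y hy).2)⟩) hc hc₂


theorem exists_delta {εt g1 g2 g3 g4 g5 g6 : ℝ} (h0 : 0 < εt) (h1 : 0 < g1) (h2 : 0 < g2)
    (h3 : 0 < g3) (h4 : 0 < g4) (h5 : 0 < g5) (h6 : 0 < g6) :
    ∃ δ > 0, 2 * δ ≤ εt ∧ 4 * δ ≤ g1 ∧ δ ≤ g2 ∧ δ ≤ g3 ∧ 2 * δ ≤ g4 ∧ 2 * δ ≤ g5 ∧ 2 * δ ≤ g6 := by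
  refine ⟨min (min (min (εt / 2) (g1 / 4)) (min g2 g3)) (min (min (g4 / 2) (g5 / 2)) (g6 / 2)),
    by positivity, ?_, ?_, ?_, ?_, ?_, ?_, ?_⟩
  · linarith [min_le_left (min (min (εt / 2) (g1 / 4)) (min g2 g3))
      (min (min (g4 / 2) (g5 / 2)) (g6 / 2)), min_le_left (min (εt / 2) (g1 / 4)) (min g2 g3),
      min_le_left (εt / 2) (g1 / 4)]
  · linarith [min_le_left (min (min (εt / 2) (g1 / 4)) (min g2 g3))
      (min (min (g4 / 2) (g5 / 2)) (g6 / 2)), min_le_left (min (εt / 2) (g1 / 4)) (min g2 g3),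
      min_le_right (εt / 2) (g1 / 4)]
  · linarith [min_le_left (min (min (εt / 2) (g1 / 4)) (min g2 g3))
      (min (min (g4 / 2) (g5 / 2)) (g6 / 2)), min_le_right (min (εt / 2) (g1 / 4)) (min g2 g3),
      min_le_left g2 g3]
  · linarith [min_le_left (min (min (εt / 2) (g1 / 4)) (min g2 g3))
      (min (min (g4 / 2) (g5 / 2)) (g6 / 2)), min_le_right (min (εt / 2) (g1 / 4)) (min g2 g3),
      min_le_right g2 g3]
  · linarith [min_le_right (min (min (εt / 2) (g1 / 4)) (min g2 g3))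
      (min (min (g4 / 2) (g5 / 2)) (g6 / 2)), min_le_left (min (g4 / 2) (g5 / 2)) (g6 / 2),
      min_le_left (g4 / 2) (g5 / 2)]
  · linarith [min_le_right (min (min (εt / 2) (g1 / 4)) (min g2 g3))
      (min (min (g4 / 2) (g5 / 2)) (g6 / 2)), min_le_left (min (g4 / 2) (g5 / 2)) (g6 / 2),
      min_le_right (g4 / 2) (g5 / 2)]
  · linarith [min_le_right (min (min (εt / 2) (g1 / 4)) (min g2 g3))
      (min (min (g4 / 2) (g5 / 2)) (g6 / 2)), min_le_right (min (g4 / 2) (g5 / 2)) (g6 / 2)]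

theorem chain_eq_zero {α : Type} [PseudoMetricSpace α] {S : Set α} {p : ℕ} {c : Ch k α}
    (hc : c ∈ Sp k (fun l => l.length = p + 1 ∧ SmL S δ l)) (hS : ¬ S.Nonempty) : c = 0 := by
  rw [Finsupp.mem_supported] at hc
  rw [← Finsupp.support_eq_empty, Finset.eq_empty_iff_forall_notMem]
  intro l hl
  have h1 := hc hl
  obtain ⟨x, hx⟩ := List.exists_mem_of_ne_nil l (by
    rintro rfl
    simp at h1)
  exact hS ⟨x, h1.2.1 x hx⟩

/-- Edge `σ = t`: the last path. -/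
theorem edge_right (h : LS.UniqSeg M ρ) (hr : 0 < r) (hrρ : r < ρ) (ht : 0 ≤ t)
    (hδ : 0 < δ) (h2δ : 2 * δ ≤ εt) (h4δ : 4 * δ ≤ r - r₀)
    (htau0 : ∀ l : List (M × M), l.length = n + 1 → SmL univ εt l →
      (∃ p ∈ l, r₀ ≤ dist p.1 p.2) → tau l = 0)
    (hom0 : ∀ l : List (ℝ →ᵇ M), l.length = b + 1 → SmL (P x₀ x₃ c') εo l → om l = 0)
    (hδo : ∀ p ∈ Nr x₀ x₁ x₂ x₃ C t r, ∀ p' ∈ Nr x₀ x₁ x₂ x₃ C t r, dist p p' < δ →
      dist (sw2 r p) (sw2 r p') < εo) {q₀ : ℝ →ᵇ M} (hq₀ : q₀ ∈ P x₂ x₃ t)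
    {ξ : List ((ℝ →ᵇ M) × ℝ)} (hξ : SmL (P x₀ x₁ C ×ˢ Icc 0 C) δ ξ) (hlen : ξ.length = n + b + 1)
    (ha : aL n tau om r x₃ ξ ≠ 0) : ∀ x ∈ ξ, dist x₃ (x.1 x.2) ≤ r ∧ c' < x.2 + r + 2 * δ := by
  set l : List (PT M) := ξ.map fun x => (x, (t, q₀)) with hl
  have hmem : ∀ p ∈ l, ∃ x ∈ ξ, p = (x, (t, q₀)) := fun p hp => by
    obtain ⟨x, hx, rfl⟩ := List.mem_map.1 hp
    exact ⟨x, hx, rfl⟩
  have hlS : SmL (Dom x₀ x₁ x₂ x₃ C t) δ l := by
    refine SmL_map (fun x hx => ⟨hξ.1 x hx, ⟨ht, le_rfl⟩, hq₀⟩) fun x hx y hy => ?_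
    rw [Prod.dist_eq, dist_self]
    exact max_lt (hξ.2 x hx y hy) hδ
  have e1 : (l.take (n + 1)).map cr = (ξ.take (n + 1)).map fun x => (x.1 x.2, x₃) := by
    rw [hl, ← List.map_take, List.map_map]
    refine List.map_congr_left fun x _ => ?_
    simp only [Function.comp_apply, cr]
    rw [eq_right hq₀ le_rfl]
  have e2 : (l.drop n).map (sw2 r) = (ξ.drop n).map fun x => splice r x.1 (cst x₃) x.2 0 := by
    rw [hl, ← List.map_drop, List.map_map]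
    refine List.map_congr_left fun x _ => ?_
    simp only [Function.comp_apply, sw2]
    exact splice_end_right hr fun u hu => eq_right hq₀ hu
  rw [aL, ← e1, ← e2] at ha
  have ht' := left_ne_zero_of_mul ha
  have ho' := right_ne_zero_of_mul ha
  have hll : l.length = n + b + 1 := by rw [hl, List.length_map, hlen]
  have hnear := near_of_tau h2δ h4δ htau0 hlS (by omega) ht'
  have htime := time_of_om (b := b) h hr hrρ hom0 hδo hlS hnear (l' := l.drop n)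
    (fun x hx => List.mem_of_mem_drop hx) (by rw [List.length_drop]; omega) ho'
  intro x hx
  have hxl : (x, (t, q₀)) ∈ l := List.mem_map_of_mem hx
  refine ⟨?_, ?_⟩
  · have := (hnear _ hxl).2
    simp only [cr] at this
    rw [eq_right hq₀ le_rfl, dist_comm] at this
    exact this
  · have := htime _ hxl
    simp only at this
    linarith

/-- Edge `τ = 0`: the last path. -/
theorem edge_bottom (h : LS.UniqSeg M ρ) (hr : 0 < r) (hrρ : r < ρ) (hC : 0 ≤ C)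
    (hδ : 0 < δ) (h2δ : 2 * δ ≤ εt) (h4δ : 4 * δ ≤ r - r₀)
    (htau0 : ∀ l : List (M × M), l.length = n + 1 → SmL univ εt l →
      (∃ p ∈ l, r₀ ≤ dist p.1 p.2) → tau l = 0)
    (hom0 : ∀ l : List (ℝ →ᵇ M), l.length = b + 1 → SmL (P x₀ x₃ c') εo l → om l = 0)
    (hδo : ∀ p ∈ Nr x₀ x₁ x₂ x₃ C t r, ∀ p' ∈ Nr x₀ x₁ x₂ x₃ C t r, dist p p' < δ →
      dist (sw2 r p) (sw2 r p') < εo) {α₀ : ℝ →ᵇ M} (hα₀ : α₀ ∈ P x₀ x₁ C)
    {β : List (ℝ × (ℝ →ᵇ M))} (hβ : SmL (Icc 0 t ×ˢ P x₂ x₃ t) δ β) (hlen : β.length = n + b + 1)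
    (ha : aR n tau om r x₀ β ≠ 0) :
    ∀ x ∈ β, dist (x.2 x.1) x₀ ≤ r ∧ c' < r + (t - x.1) + 2 * δ := by
  set l : List (PT M) := β.map fun x => ((α₀, 0), x) with hl
  have hlS : SmL (Dom x₀ x₁ x₂ x₃ C t) δ l := by
    refine SmL_map (fun x hx => ⟨⟨hα₀, ⟨le_rfl, hC⟩⟩, hβ.1 x hx⟩) fun x hx y hy => ?_
    rw [Prod.dist_eq, dist_self]
    exact max_lt hδ (hβ.2 x hx y hy)
  have e1 : (l.take (n + 1)).map cr = (β.take (n + 1)).map fun x => (x₀, x.2 x.1) := by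
    rw [hl, ← List.map_take, List.map_map]
    refine List.map_congr_left fun x _ => ?_
    simp only [Function.comp_apply, cr]
    rw [eq_left hα₀ le_rfl]
  have e2 : (l.drop n).map (sw2 r) = (β.drop n).map fun x => splice r (cst x₀) x.2 0 x.1 := by
    rw [hl, ← List.map_drop, List.map_map]
    refine List.map_congr_left fun x _ => ?_
    simp only [Function.comp_apply, sw2]
    exact splice_zero_left hr fun u hu => eq_left hα₀ hu
  rw [aR, ← e1, ← e2] at ha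
  have ht' := left_ne_zero_of_mul ha
  have ho' := right_ne_zero_of_mul ha
  have hll : l.length = n + b + 1 := by rw [hl, List.length_map, hlen]
  have hnear := near_of_tau h2δ h4δ htau0 hlS (by omega) ht'
  have htime := time_of_om (b := b) h hr hrρ hom0 hδo hlS hnear (l' := l.drop n)
    (fun x hx => List.mem_of_mem_drop hx) (by rw [List.length_drop]; omega) ho'
  intro x hx
  have hxl : ((α₀, (0 : ℝ)), x) ∈ l := List.mem_map_of_mem hx
  refine ⟨?_, ?_⟩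
  · have := (hnear _ hxl).2
    simp only [cr] at this
    rw [eq_left hα₀ le_rfl, dist_comm] at this
    exact this
  · have := htime _ hxl
    simp only at this
    linarith

/-- **THE CROSSING-SWAP IDENTITY ON THE PATH SPACES.** -/
theorem inst (h : LS.UniqSeg M ρ) (hr : 0 < r) (hrρ : r < ρ) (hr0 : r₀ < r) (hC : 0 ≤ C)
    (ht : 0 ≤ t) (hm : m + 1 = n + b) (hn : 2 ≤ n) (hd : b < d) (hdm : d ≤ m)
    (ntau : Nrm tau) (nom : Nrm om) (neta : Nrm eta) (hεt : 0 < εt) (hεo : 0 < εo)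
    (hεe : 0 < εe)
    (htau1 : ∀ l : List (M × M), l.length = n + 2 → SmL univ εt l → dl tau l = 0)
    (htau0 : ∀ l : List (M × M), l.length = n + 1 → SmL univ εt l →
      (∃ p ∈ l, r₀ ≤ dist p.1 p.2) → tau l = 0)
    (hom1 : ∀ l : List (ℝ →ᵇ M), l.length = b + 2 → SmL (P x₀ x₃ (C + r + t)) εo l →
      dl om l = 0)
    (hom0 : ∀ l : List (ℝ →ᵇ M), l.length = b + 1 → SmL (P x₀ x₃ c') εo l → om l = 0)
    (heta : ∀ l : List (ℝ →ᵇ M), l.length = d + 2 → SmL (P x₂ x₁ s) εe l → dl eta l = 0)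
    {D s1 s2 : ℝ} (hD : 0 ≤ D)
    (hpi : ∀ (a b : M) (u : ℝ), 0 ≤ u → ∀ w ∈ P a b u, ∀ w' ∈ P a b u,
      JoinedIn (P a b (u + D)) w w')
    (hs1 : C + 2 * r - c' < s1) (hs1' : 0 ≤ s1) (hs2 : t + 2 * r - c' < s2) (hs2' : 0 ≤ s2)
    (h1 : t + s1 + D ≤ s) (h2 : s2 + D + C ≤ s)
    {v₀ w₀ : ℝ →ᵇ M} (hv₀ : v₀ ∈ P x₃ x₁ s1) (hw₀ : w₀ ∈ P x₂ x₀ s2) :
    ∃ δ > 0, ∀ z : Ch k (ℝ →ᵇ M),
      z ∈ Sp k (fun l => l.length = m + 1 ∧ SmL (P x₀ x₁ C) δ l) → bd z = 0 →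
      ∀ ι : Ch k ℝ, ι ∈ Sp k (fun l => l.length = 2 ∧ SmL (Icc 0 C) δ l) →
      bd ι = single [C] 1 - single [0] 1 →
      ∀ κ : Ch k ℝ, κ ∈ Sp k (fun l => l.length = 2 ∧ SmL (Icc 0 t) δ l) →
      bd κ = single [t] 1 - single [0] 1 →
      ∃ g : List (ℝ →ᵇ M) → k, ∀ y : List (ℝ →ᵇ M), y.length = d + 1 → SmL (P x₂ x₃ t) δ y →
        ev (aL n tau om r x₃) (sh z ι) * eta (y.map fun q => cat t q v₀) +
          (if d = m then ev (fun l => eta (l.map fun p => cat s2 w₀ p)) z *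
            fibL (aR n tau om r x₀) κ y else 0) = dl g y := by
  obtain ⟨δo, hδo0, hδo⟩ := uc_of_continuousOn (isCompact_Nr (x₀ := x₀) (x₁ := x₁) (x₂ := x₂)
    (x₃ := x₃) (C := C) (t := t) (r := r)) (continuousOn_sw2 h hr hrρ hC ht) hεo
  obtain ⟨δe, hδe0, hδe⟩ := uc_of_continuousOn (isCompact_Nr (x₀ := x₀) (x₁ := x₁) (x₂ := x₂)
    (x₃ := x₃) (C := C) (t := t) (r := r)) (continuousOn_sw1 h hr hrρ hC ht) hεe
  obtain ⟨δ, hδ, a1, a2, a3, a4, a5, a6, a7⟩ := exists_delta hεt (sub_pos.2 hr0) hδo0 hδe0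
    (sub_pos.2 hs1) (sub_pos.2 hs2) hεe
  have hδo' : ∀ p ∈ Nr x₀ x₁ x₂ x₃ C t r, ∀ p' ∈ Nr x₀ x₁ x₂ x₃ C t r, dist p p' < δ →
      dist (sw2 r p) (sw2 r p') < εo := fun p hp p' hp' hpp => hδo p hp p' hp' (hpp.trans_le a3)
  have hδe' : ∀ p ∈ Nr x₀ x₁ x₂ x₃ C t r, ∀ p' ∈ Nr x₀ x₁ x₂ x₃ C t r, dist p p' < δ →
      dist (sw1 r p) (sw1 r p') < εe := fun p hp p' hp' hpp => hδe p hp p' hp' (hpp.trans_le a4)
  refine ⟨δ, hδ, fun z hz hbz ι hι hbι κ hκ hbκ => ?_⟩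
  by_cases hne : (P x₀ x₁ C).Nonempty
  swap
  · refine ⟨fun _ => 0, fun y _ _ => ?_⟩
    rw [chain_eq_zero hz hne, map_zero, LinearMap.zero_apply, map_zero, map_zero, zero_mul,
      zero_mul, ite_self, add_zero, PS.dl_zero_fun]
  by_cases hne' : (P x₂ x₃ t).Nonempty
  swap
  · refine ⟨fun _ => 0, fun y hy hyS => ?_⟩
    obtain ⟨x, hx⟩ := List.exists_mem_of_ne_nil y (by
      rintro rfl
      simp at hy)
    exact absurd ⟨x, hyS.1 x hx⟩ hne'
  obtain ⟨α₀, hα₀⟩ := hne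
  obtain ⟨q₀, hq₀⟩ := hne'
  have hzι : sh z ι ∈ Sp k (fun l => l.length = m + 1 + 1 ∧ SmL (P x₀ x₁ C ×ˢ Icc 0 C) δ l) :=
    Sp_SmL_sh (q := 1) hz hι
  -- the edge `σ = t`
  obtain ⟨b1, hb1⟩ := Hm.ev_sum (eta := eta) (X := P x₂ x₃ t) (δ := δ) (d := d)
    (a := aL n tau om r x₃) (Z := sh z ι)
    (i := fun ξ q => sw1 r (ξ.getLastD (α₀, 0), (t, q))) (i₀ := fun q => cat t q v₀)
    (fun ξ hξ ha => by
      have hξ' := (Finsupp.mem_supported _ _).1 hzι (Finsupp.mem_support_iff.2 hξ)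
      have hξl : ξ.length = m + 1 + 1 := hξ'.1
      have hξS : SmL (P x₀ x₁ C ×ˢ Icc 0 C) δ ξ := hξ'.2
      have hξne : ξ ≠ [] := by
        rintro rfl
        simp at hξl
      have hlast := getLastD_mem (α₀, (0 : ℝ)) hξne
      obtain ⟨hd1, hd2⟩ := edge_right h hr hrρ ht hδ a1 a2 htau0 hom0 hδo' hq₀ hξS (by omega) ha
        _ hlast
      obtain ⟨hα, hτ⟩ := hξS.1 _ hlast
      set x := ξ.getLastD (α₀, (0 : ℝ)) with hx
      have hw : splice r (cst x₃) x.1 0 x.2 ∈ P x₃ x₁ s1 := by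
        refine P_mono ?_ (splice_mem (t := C) h hr hrρ (lip_cst x₃) hα.1 (by rwa [cst_apply])
          le_rfl hτ.2 (fun _ _ => cst_apply _ _) hα.2.2)
        linarith
      have key := Hm_cat_right (a := x₂) (b := x₃) (c := x₁) (t := t) (s := s1 + D) (ε := εe)
        (d := d) (eta := eta) ht (by linarith) hεe
        (fun l hl hl' => heta l hl (hl'.mono (P_mono (by linarith)) le_rfl))
        (hpi x₃ x₁ s1 hs1' v₀ hv₀ _ hw)
      refine (key.mono le_rfl (by linarith)).congr (fun _ _ => rfl) fun q hq => ?_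
      have e1 : (q : ℝ →ᵇ M) t = x₃ := eq_right hq le_rfl
      have e2 := splice_end_left (w := q) (w' := x.1) (t := t) (τ := x.2) h hr hrρ hq.1 hα.1
        (by rwa [e1])
      simp only [sw1]
      rw [e2, e1])
  -- the edge `τ = 0`
  have E2 : ∀ y : List (ℝ →ᵇ M), y.length = d + 1 → SmL (P x₂ x₃ t) δ y → d = m →
      ev (fun β => tau ((β.take (n + 1)).map fun x => (x₀, x.2 x.1)) *
        om ((β.drop n).map fun x => splice r (cst x₀) x.2 0 x.1) *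
        ev (fun s => eta (s.map fun p => sw1 r ((p, 0), β.getLastD ((0 : ℝ), q₀)))) z)
          (sh κ (single y 1)) =
      ev (fun l => eta (l.map fun p => cat s2 w₀ p)) z * fibL (aR n tau om r x₀) κ y := by
    intro y hy hyS hdm'
    have hβm : sh κ (single y (1 : k)) ∈
        Sp k (fun l => l.length = 1 + d + 1 ∧ SmL (Icc 0 t ×ˢ P x₂ x₃ t) δ l) :=
      Sp_SmL_sh (p := 1) hκ (single_mem ⟨hy, hyS⟩ 1)
    rw [fibL, ← ev_smul_fun]
    refine ev_congr (fun β hβ => ?_) hβm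
    obtain ⟨hβl, hβS⟩ := hβ
    rw [← aR, mul_comm]
    by_cases ha : aR n tau om r x₀ β = 0
    · rw [ha, mul_zero, mul_zero]
    congr 1
    have hβne : β ≠ [] := by
      rintro rfl
      simp at hβl
    have hlast := getLastD_mem ((0 : ℝ), q₀) hβne
    obtain ⟨hd1, hd2⟩ := edge_bottom h hr hrρ hC hδ a1 a2 htau0 hom0 hδo' hα₀ hβS (by omega) ha
      _ hlast
    obtain ⟨hσ, hq⟩ := hβS.1 _ hlast
    set x := β.getLastD ((0 : ℝ), q₀) with hx
    have hw : splice r x.2 (cst x₀) x.1 0 ∈ P x₂ x₀ (x.1 + r) := by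
      refine P_mono ?_ (splice_mem (t := 0) h hr hrρ hq.1 (lip_cst x₀) (by rwa [cst_apply])
        hσ.1 le_rfl hq.2.1 (fun _ _ => cst_apply _ _))
      linarith
    have key := Hm_cat_slide (a := x₂) (b := x₀) (c := x₁) (C := C) (D := D) (ε := εe)
      (s₀ := s2) (s := s2) (s' := x.1 + r) (w := w₀) (w' := splice r x.2 (cst x₀) x.1 0)
      (d := d) (eta := eta) hC hD hεe (hpi x₂ x₀ s2 hs2')
      (fun l hl hl' => heta l hl (hl'.mono (P_mono (by linarith)) le_rfl)) hs2'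
      (by linarith [hσ.1]) le_rfl (by linarith) hw₀ hw
    have hz' : z ∈ Sp k (fun l => l.length = d + 1 ∧ SmL (P x₀ x₁ C) δ l) := by
      rw [hdm']
      exact hz
    rw [← (key.mono le_rfl (show δ ≤ εe / 2 by linarith)).ev_eq hz' hbz]
    refine ev_congr (fun l hl => ?_) hz'
    congr 1
    refine List.map_congr_left fun p hp => ?_
    have hpP := hl.2.1 p hp
    have e1 : (p : ℝ →ᵇ M) 0 = x₀ := eq_left hpP le_rfl
    have e2 := splice_zero_right (w := x.2) (w' := p) (σ := x.1) h hr hrρ hq.1 hpP.1 (by rwa [e1])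
    simp only [sw1]
    rw [e2, e1]
  -- assembly
  refine ⟨fun y => slant n b tau om eta cr (sw2 r) (sw1 r) (sh z ι) κ y + -b1 y,
    fun y hy hyS => ?_⟩
  have hcoc : ev (psi n b tau om eta cr (sw2 r) (sw1 r))
      (bd (sh (sh z ι) (sh κ (single y 1)))) = 0 := by
    rw [← ev_dl]
    have hX : sh (sh z ι) (sh κ (single y (1 : k))) ∈ Sp k (fun l : List (PT M) =>
        l.length = (m + 1) + (d + 1) + 1 ∧ SmL (Dom x₀ x₁ x₂ x₃ C t) δ l) := by
      have h3 := Sp_SmL_sh (p := 1) (q := d) hκ (single_mem (k := k)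
        (P := fun l => l.length = d + 1 ∧ SmL (P x₂ x₃ t) δ l) ⟨hy, hyS⟩ 1)
      rw [show 1 + d + 1 = (d + 1) + 1 by omega] at h3
      exact Sp_SmL_sh hzι h3
    exact ev_zero_of (fun l hl => dl_psi_zero h hr hrρ (by linarith) a1 a2 htau1 htau0 hom1 hom0
      heta hδo' hδe' (by rw [hl.1]; omega) hl.2) hX
  have hzIn : z ∈ Sp k (In (P x₀ x₁ C)) := Sp_mono (fun l hl => hl.2.1) hz
  have hιIn : ι ∈ Sp k (In (Icc 0 C)) := Sp_mono (fun l hl => hl.2.1) hι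
  have hκIn : κ ∈ Sp k (In (Icc 0 t)) := Sp_mono (fun l hl => hl.2.1) hκ
  have swap := swap_identity_on (A := P x₀ x₁ C) (B := Icc 0 C) (C := Icc 0 t) (D := P x₂ x₃ t)
    (c := cr) (w := sw2 r) (v := sw1 r) (tau := tau) (om := om) (eta := eta)
    hm hn hd hdm ntau nom neta (Sp_mono (fun l hl => hl.1) hz) hzIn hbz
    (Sp_mono (fun l hl => hl.1) hι) hιIn hbι (Sp_mono (fun l hl => hl.1) hκ) hκIn hbκ
    ⟨le_rfl, hC⟩ ⟨hC, le_rfl⟩ ⟨le_rfl, ht⟩ ⟨ht, le_rfl⟩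
    (cs1 := fun x => (x.1 x.2, x₃)) (ws1 := fun x => splice r x.1 (cst x₃) x.2 0)
    (fun x _ q hq => by simp only [cr]; rw [eq_right hq le_rfl])
    (fun x _ q hq => splice_end_right hr fun u hu => eq_right hq hu)
    (cs0 := fun x => (x.1 x.2, x₂)) (vs0 := fun x => splice r (cst x₂) x.1 0 x.2)
    (fun x _ q hq => by simp only [cr]; rw [eq_left hq le_rfl])
    (fun x _ q hq => splice_zero_left hr fun u hu => eq_left hq hu)
    (cr1 := fun x => (x₁, x.2 x.1)) (vr1 := fun x => splice r x.2 (cst x₁) x.1 0)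
    (fun p hp x _ => by simp only [cr]; rw [eq_right hp le_rfl])
    (fun p hp x _ => splice_end_right hr fun u hu => eq_right hp hu)
    (cr0 := fun x => (x₀, x.2 x.1)) (wr0 := fun x => splice r (cst x₀) x.2 0 x.1)
    (fun p hp x _ => by simp only [cr]; rw [eq_left hp le_rfl])
    (fun p hp x _ => splice_zero_left hr fun u hu => eq_left hp hu)
    (α₀, 0) (0, q₀) ⟨hα₀, ⟨le_rfl, hC⟩⟩ ⟨⟨le_rfl, ht⟩, hq₀⟩ hy hyS.1 hcoc
  have hb := hb1 y hy hyS
  rw [PS.dl_add, PS.dl_neg, ← swap, ← hb]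
  by_cases hdm' : d = m
  · rw [if_pos hdm', if_pos hdm', E2 y hy hyS hdm']
    simp only [aL]
    ring
  · rw [if_neg hdm', if_neg hdm']
    simp only [aL]
    ring

end Vale.Agent.P216.Sg
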