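import Vale.Agent.P216.N970.Seg

/-!
# The crossing-swap identity with the edge formulas on a domain only
-/

open Finsupp Set

namespace Vale.Agent.P216.Sg

open Vale.Agent.P216.Sl

variable {k : Type} [Field k]

/-- Lists with entries in `S`. -/
def In {α : Type} (S : Set α) (l : List α) : Prop := ∀ x ∈ l, x ∈ S

theorem In.sub {α : Type} {S : Set α} {l l' : List α} (h : In S l) (hl : ∀ x ∈ l', x ∈ l) :
    In S l' := fun x hx => h x (hl x hx)

theorem Fi.In {α : Type} [PseudoMetricSpace α] {S : Set α} {r : ℝ} {l : List α} (h : Fi S r l) :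
    In S l := h.1

theorem sh_In {α β : Type} {S : Set α} {S' : Set β} {c : Ch k α} {c' : Ch k β}
    (hc : c ∈ Sp k (In S)) (hc' : c' ∈ Sp k (In S')) : sh c c' ∈ Sp k (In (S ×ˢ S')) :=
  sh_mem (fun _ _ _ hs ht hl x hx => ⟨hs _ (hl.2 x hx).1, ht _ (hl.2 x hx).2⟩) hc hc'

open Classical in
/-- Push a point into a set. -/
noncomputable def pu {α : Type} (S : Set α) (a x : α) : α := if x ∈ S then x else a

theorem pu_of_mem {α : Type} {S : Set α} {a x : α} (h : x ∈ S) : pu S a x = x := if_pos h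

theorem pu_mem {α : Type} {S : Set α} {a : α} (ha : a ∈ S) (x : α) : pu S a x ∈ S := by
  rw [pu]
  split_ifs with h
  · exact h
  · exact ha

variable {P T U Q MM O H : Type} {n b : ℕ} {tau : List MM → k} {om : List O → k}
  {eta : List H → k} {c : (P × T) × (U × Q) → MM} {w : (P × T) × (U × Q) → O}
  {v : (P × T) × (U × Q) → H}

theorem map_congr_in {α β : Type} {S : Set α} {l : List α} (h : In S l) {f g : α → β}
    (hfg : ∀ x ∈ S, f x = g x) : l.map f = l.map g :=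
  List.map_congr_left fun x hx => hfg x (h x hx)

/-- `psi` only depends on the values on the entries. -/
theorem psi_congr {S : Set ((P × T) × (U × Q))} {c' : (P × T) × (U × Q) → MM}
    {w' : (P × T) × (U × Q) → O} {v' : (P × T) × (U × Q) → H}
    (hc : ∀ x ∈ S, c x = c' x) (hw : ∀ x ∈ S, w x = w' x) (hv : ∀ x ∈ S, v x = v' x)
    {l : List ((P × T) × (U × Q))} (hl : In S l) :
    psi n b tau om eta c w v l = psi n b tau om eta c' w' v' l := by
  rw [psi, psi, map_congr_in (hl.sub fun _ h => List.mem_of_mem_take h) hc,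
    map_congr_in (hl.sub fun _ h => List.mem_of_mem_drop (List.mem_of_mem_take h)) hw,
    map_congr_in (hl.sub fun _ h => List.mem_of_mem_drop h) hv]

theorem slant_congr {A : Set P} {B : Set T} {C : Set U} {D : Set Q}
    {c' : (P × T) × (U × Q) → MM}
    {w' : (P × T) × (U × Q) → O} {v' : (P × T) × (U × Q) → H}
    (hc : ∀ x ∈ (A ×ˢ B) ×ˢ (C ×ˢ D), c x = c' x) (hw : ∀ x ∈ (A ×ˢ B) ×ˢ (C ×ˢ D), w x = w' x)
    (hv : ∀ x ∈ (A ×ˢ B) ×ˢ (C ×ˢ D), v x = v' x) {ζ : Ch k (P × T)} (hζ : ζ ∈ Sp k (In (A ×ˢ B)))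
    {κ : Ch k U} (hκ : κ ∈ Sp k (In C)) {y : List Q} (hy : In D y) :
    slant n b tau om eta c w v ζ κ y = slant n b tau om eta c' w' v' ζ κ y := by
  rw [slant, slant]
  exact ev_congr (fun l hl => psi_congr hc hw hv hl) (sh_In hζ (sh_In hκ (single_mem hy 1)))

theorem dl_congr {α : Type} {f g : List α → k} {S : Set α} (h : ∀ l, In S l → f l = g l)
    {l : List α} (hl : In S l) : dl f l = dl g l :=
  ev_congr h (by
    have := bd_mem (k := k) (P := In S) (fun _ _ h hl => hl.sub fun _ hx => h.subset hx)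
      (c := single l 1) (single_mem hl 1)
    rwa [bd_single, one_smul] at this)

/-- THE CROSSING-SWAP IDENTITY, edge formulas on `(A × B) × (C × D)` only. -/
theorem swap_identity_on {m d : ℕ} (hm : m + 1 = n + b) (hn : 2 ≤ n) (hd : b < d) (hdm : d ≤ m)
    (htau : Nrm tau) (hom : Nrm om) (heta : Nrm eta)
    {A : Set P} {B : Set T} {C : Set U} {D : Set Q}
    {z : Ch k P} (hz : z ∈ Sp k (Ln (m + 1))) (hzA : z ∈ Sp k (In A)) (hbz : bd z = 0)
    {ι : Ch k T} (hι : ι ∈ Sp k (Ln 2)) (hιB : ι ∈ Sp k (In B)) {t0 t1 : T}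
    (hbι : bd ι = single [t1] 1 - single [t0] 1)
    {κ : Ch k U} (hκ : κ ∈ Sp k (Ln 2)) (hκC : κ ∈ Sp k (In C)) {u0 u1 : U}
    (hbκ : bd κ = single [u1] 1 - single [u0] 1) (ht0 : t0 ∈ B) (ht1 : t1 ∈ B) (hu0 : u0 ∈ C)
    (hu1 : u1 ∈ C)
    {cs1 : P × T → MM} {ws1 : P × T → O}
    (hcs1 : ∀ x ∈ A ×ˢ B, ∀ q ∈ D, c (x, (u1, q)) = cs1 x)
    (hws1 : ∀ x ∈ A ×ˢ B, ∀ q ∈ D, w (x, (u1, q)) = ws1 x)
    {cs0 : P × T → MM} {vs0 : P × T → H}
    (hcs0 : ∀ x ∈ A ×ˢ B, ∀ q ∈ D, c (x, (u0, q)) = cs0 x)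
    (hvs0 : ∀ x ∈ A ×ˢ B, ∀ q ∈ D, v (x, (u0, q)) = vs0 x)
    {cr1 : U × Q → MM} {vr1 : U × Q → H} (hcr1 : ∀ p ∈ A, ∀ x ∈ C ×ˢ D, c ((p, t1), x) = cr1 x)
    (hvr1 : ∀ p ∈ A, ∀ x ∈ C ×ˢ D, v ((p, t1), x) = vr1 x)
    {cr0 : U × Q → MM} {wr0 : U × Q → O} (hcr0 : ∀ p ∈ A, ∀ x ∈ C ×ˢ D, c ((p, t0), x) = cr0 x)
    (hwr0 : ∀ p ∈ A, ∀ x ∈ C ×ˢ D, w ((p, t0), x) = wr0 x) (x0 : P × T) (x1 : U × Q)
    (hx0 : x0 ∈ A ×ˢ B) (hx1 : x1 ∈ C ×ˢ D)
    {y : List Q} (hy : y.length = d + 1) (hyD : In D y)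
    (hcoc : ev (psi n b tau om eta c w v) (bd (sh (sh z ι) (sh κ (single y 1)))) = 0) :
    ev (fun ξ => tau ((ξ.take (n + 1)).map cs1) * om ((ξ.drop n).map ws1) *
        eta (y.map fun q => v (ξ.getLastD x0, (u1, q)))) (sh z ι) +
      (if d = m then ev (fun β => tau ((β.take (n + 1)).map cr0) * om ((β.drop n).map wr0) *
        ev (fun s => eta (s.map fun p => v ((p, t0), β.getLastD x1))) z)
          (sh κ (single y 1)) else 0) =
      dl (slant n b tau om eta c w v (sh z ι) κ) y := by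
  set g : (P × T) × (U × Q) → (P × T) × (U × Q) := fun x =>
    ((pu A x0.1 x.1.1, pu B x0.2 x.1.2), (pu C x1.1 x.2.1, pu D x1.2 x.2.2)) with hg
  have hgm : ∀ x ∈ (A ×ˢ B) ×ˢ (C ×ˢ D), g x = x := by
    rintro ⟨⟨p, τ⟩, ⟨σ, q⟩⟩ ⟨⟨h1, h2⟩, ⟨h3, h4⟩⟩
    simp only at h1 h2 h3 h4
    simp only [hg, pu_of_mem h1, pu_of_mem h2, pu_of_mem h3, pu_of_mem h4]
  set g1 : P × T → P × T := fun x => (pu A x0.1 x.1, pu B x0.2 x.2) with hg1
  have hg1m : ∀ x ∈ A ×ˢ B, g1 x = x := by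
    rintro ⟨p, τ⟩ ⟨h1, h2⟩
    simp only at h1 h2
    simp only [hg1, pu_of_mem h1, pu_of_mem h2]
  have hg1i : ∀ x, g1 x ∈ A ×ˢ B := fun x => ⟨pu_mem hx0.1 _, pu_mem hx0.2 _⟩
  set g2 : U × Q → U × Q := fun x => (pu C x1.1 x.1, pu D x1.2 x.2) with hg2
  have hg2m : ∀ x ∈ C ×ˢ D, g2 x = x := by
    rintro ⟨p, τ⟩ ⟨h1, h2⟩
    simp only at h1 h2
    simp only [hg2, pu_of_mem h1, pu_of_mem h2]
  have hg2i : ∀ x, g2 x ∈ C ×ˢ D := fun x => ⟨pu_mem hx1.1 _, pu_mem hx1.2 _⟩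
  have hζ : sh z ι ∈ Sp k (In (A ×ˢ B)) := sh_In hzA hιB
  have hX : ∀ y : List Q, In D y → sh (sh z ι) (sh κ (single y (1 : k))) ∈
      Sp k (In ((A ×ˢ B) ×ˢ (C ×ˢ D))) := fun y hyD => sh_In hζ (sh_In hκC (single_mem hyD 1))
  have hcoc' : ev (psi n b tau om eta (c ∘ g) (w ∘ g) (v ∘ g))
      (bd (sh (sh z ι) (sh κ (single y 1)))) = 0 := by
    rw [← hcoc]
    refine ev_congr (P := In ((A ×ˢ B) ×ˢ (C ×ˢ D))) (fun l hl => ?_) ?_
    · exact psi_congr (fun x hx => by rw [Function.comp_apply, hgm x hx])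
        (fun x hx => by rw [Function.comp_apply, hgm x hx])
        (fun x hx => by rw [Function.comp_apply, hgm x hx]) hl
    · exact bd_mem (fun _ _ h hl => hl.sub fun _ hx => h.subset hx) (hX y hyD)
  have main := swap_identity (c := c ∘ g) (w := w ∘ g) (v := v ∘ g) hm hn hd hdm htau hom heta hz
    hbz hι hbι hκ hbκ (cs1 := cs1 ∘ g1) (ws1 := ws1 ∘ g1) (cs0 := cs0 ∘ g1) (vs0 := vs0 ∘ g1)
    (cr1 := cr1 ∘ g2) (vr1 := vr1 ∘ g2) (cr0 := cr0 ∘ g2) (wr0 := wr0 ∘ g2)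
    (fun x q => by
      have := hcs1 (g1 x) (hg1i x) (pu D x1.2 q) (pu_mem hx1.2 q)
      simpa only [Function.comp_apply, hg, pu_of_mem hu1] using this)
    (fun x q => by
      have := hws1 (g1 x) (hg1i x) (pu D x1.2 q) (pu_mem hx1.2 q)
      simpa only [Function.comp_apply, hg, pu_of_mem hu1] using this)
    (fun x q => by
      have := hcs0 (g1 x) (hg1i x) (pu D x1.2 q) (pu_mem hx1.2 q)
      simpa only [Function.comp_apply, hg, pu_of_mem hu0] using this)
    (fun x q => by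
      have := hvs0 (g1 x) (hg1i x) (pu D x1.2 q) (pu_mem hx1.2 q)
      simpa only [Function.comp_apply, hg, pu_of_mem hu0] using this)
    (fun p x => by
      have := hcr1 (pu A x0.1 p) (pu_mem hx0.1 p) (g2 x) (hg2i x)
      simpa only [Function.comp_apply, hg, pu_of_mem ht1] using this)
    (fun p x => by
      have := hvr1 (pu A x0.1 p) (pu_mem hx0.1 p) (g2 x) (hg2i x)
      simpa only [Function.comp_apply, hg, pu_of_mem ht1] using this)
    (fun p x => by
      have := hcr0 (pu A x0.1 p) (pu_mem hx0.1 p) (g2 x) (hg2i x)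
      simpa only [Function.comp_apply, hg, pu_of_mem ht0] using this)
    (fun p x => by
      have := hwr0 (pu A x0.1 p) (pu_mem hx0.1 p) (g2 x) (hg2i x)
      simpa only [Function.comp_apply, hg, pu_of_mem ht0] using this) x0 x1 hy hcoc'
  have hlast : ∀ {α : Type} {S : Set α} {a : α} {l : List α}, a ∈ S → In S l →
      l.getLastD a ∈ S := by
    intro α S a l ha hl
    rcases List.eq_nil_or_concat l with rfl | ⟨l', x, rfl⟩
    · exact ha
    · rw [List.concat_eq_append] at hl ⊢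
      rw [List.getLastD_concat]
      exact hl x (by simp)
  have e1 : ev (fun ξ => tau ((ξ.take (n + 1)).map (cs1 ∘ g1)) *
        om ((ξ.drop n).map (ws1 ∘ g1)) *
        eta (y.map fun q => (v ∘ g) (ξ.getLastD x0, (u1, q)))) (sh z ι) =
      ev (fun ξ => tau ((ξ.take (n + 1)).map cs1) * om ((ξ.drop n).map ws1) *
        eta (y.map fun q => v (ξ.getLastD x0, (u1, q)))) (sh z ι) := by
    refine ev_congr (fun ξ hξ => ?_) hζ
    rw [map_congr_in (hξ.sub fun _ h => List.mem_of_mem_take h)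
        (f := cs1 ∘ g1) (g := cs1) fun x hx => by rw [Function.comp_apply, hg1m x hx],
      map_congr_in (hξ.sub fun _ h => List.mem_of_mem_drop h)
        (f := ws1 ∘ g1) (g := ws1) fun x hx => by rw [Function.comp_apply, hg1m x hx],
      map_congr_in hyD (f := fun q => (v ∘ g) (ξ.getLastD x0, (u1, q)))
        (g := fun q => v (ξ.getLastD x0, (u1, q))) fun q hq => by
          rw [Function.comp_apply, hgm _ ⟨hlast hx0 hξ, hu1, hq⟩]]
  have e2 : ev (fun β => tau ((β.take (n + 1)).map (cr0 ∘ g2)) * om ((β.drop n).map (wr0 ∘ g2)) *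
        ev (fun s => eta (s.map fun p => (v ∘ g) ((p, t0), β.getLastD x1))) z)
          (sh κ (single y 1)) =
      ev (fun β => tau ((β.take (n + 1)).map cr0) * om ((β.drop n).map wr0) *
        ev (fun s => eta (s.map fun p => v ((p, t0), β.getLastD x1))) z)
          (sh κ (single y 1)) := by
    refine ev_congr (P := In (C ×ˢ D)) (fun β hβ => ?_) (sh_In hκC (single_mem hyD 1))
    rw [map_congr_in (hβ.sub fun _ h => List.mem_of_mem_take h)
        (f := cr0 ∘ g2) (g := cr0) fun x hx => by rw [Function.comp_apply, hg2m x hx],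
      map_congr_in (hβ.sub fun _ h => List.mem_of_mem_drop h)
        (f := wr0 ∘ g2) (g := wr0) fun x hx => by rw [Function.comp_apply, hg2m x hx]]
    congr 1
    refine ev_congr (P := In A) (fun s hs => ?_) hzA
    rw [map_congr_in hs (f := fun p => (v ∘ g) ((p, t0), β.getLastD x1))
        (g := fun p => v ((p, t0), β.getLastD x1)) fun p hp => by
          rw [Function.comp_apply, hgm _ ⟨⟨hp, ht0⟩, hlast hx1 hβ⟩]]
  have e3 : dl (slant n b tau om eta (c ∘ g) (w ∘ g) (v ∘ g) (sh z ι) κ) y =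
      dl (slant n b tau om eta c w v (sh z ι) κ) y :=
    dl_congr (S := D) (fun l hl => slant_congr
        (fun x hx => by rw [Function.comp_apply, hgm x hx])
        (fun x hx => by rw [Function.comp_apply, hgm x hx])
        (fun x hx => by rw [Function.comp_apply, hgm x hx]) hζ hκC hl) hyD
  rw [e1, e2, e3] at main
  exact main

end Vale.Agent.P216.Sg
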